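import Vale.Agent.P011N.Iface

/-!
Rational functions which are regular at zero, and tangent vectors of rational curves.
-/

open Polynomial

namespace Vale.Agent.P011N.E2

open Vale.Agent.P011N

section pol

variable {M N P : Type} [AddCommGroup M] [Module ℚ M] [AddCommGroup N] [Module ℚ N]
  [AddCommGroup P] [Module ℚ P]

/-- The polynomial functions. -/
def Pol (M : Type) [AddCommGroup M] [Module ℚ M] : Submodule ℚ (ℚ → M) :=
  Submodule.span ℚ {f | ∃ (n : ℕ) (c : M), f = fun t : ℚ => t ^ n • c}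

theorem pol_mon (n : ℕ) (c : M) : (fun t : ℚ => t ^ n • c) ∈ Pol M :=
  Submodule.subset_span ⟨n, c, rfl⟩

theorem pol_sum {ι : Type} (s : Finset ι) {f : ι → ℚ → M} (h : ∀ i ∈ s, f i ∈ Pol M) :
    (fun t => ∑ i ∈ s, f i t) ∈ Pol M := by
  have h1 := (Pol M).sum_mem h
  have h2 : (fun t => ∑ i ∈ s, f i t) = ∑ i ∈ s, f i := by
    funext t
    rw [Finset.sum_apply]
  rwa [h2]

theorem exists_fin {f : ℚ → M} (hf : f ∈ Pol M) :
    ∃ (n : ℕ) (c : Fin n → M), ∀ t : ℚ, f t = ∑ j : Fin n, t ^ (j : ℕ) • c j := by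
  have h : ∃ c : ℕ →₀ M, ∀ t : ℚ, f t = c.sum fun j v => t ^ j • v := by
    induction hf using Submodule.span_induction with
    | mem f h =>
      obtain ⟨n, c, rfl⟩ := h
      exact ⟨Finsupp.single n c, fun t =>
        (Finsupp.sum_single_index (h := fun j v => t ^ j • v) (smul_zero _)).symm⟩
    | zero => exact ⟨0, fun t => by rw [Finsupp.sum_zero_index]; rfl⟩
    | add f g _ _ hf hg =>
      obtain ⟨c, hc⟩ := hf
      obtain ⟨d, hd⟩ := hg
      refine ⟨c + d, fun t => ?_⟩
      rw [Finsupp.sum_add_index' (fun _ => smul_zero _) (fun _ _ _ => smul_add _ _ _),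
        Pi.add_apply, hc, hd]
    | smul r f _ hf =>
      obtain ⟨c, hc⟩ := hf
      refine ⟨r • c, fun t => ?_⟩
      rw [Finsupp.sum_smul_index' (fun _ => smul_zero _), Pi.smul_apply, hc, Finsupp.smul_sum]
      exact Finsupp.sum_congr fun _ _ => smul_comm _ _ _
  obtain ⟨c, hc⟩ := h
  obtain ⟨n, hn⟩ := Finset.exists_nat_subset_range c.support
  refine ⟨n, fun j => c j, fun t => ?_⟩
  rw [hc, Finsupp.sum_of_support_subset c hn _ (fun _ _ => smul_zero _),
    Finset.sum_range (fun j => t ^ j • c j)]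

theorem pol_bil (B : M →ₗ[ℚ] N →ₗ[ℚ] P) {f : ℚ → M} {g : ℚ → N} (hf : f ∈ Pol M)
    (hg : g ∈ Pol N) : (fun t => B (f t) (g t)) ∈ Pol P := by
  obtain ⟨n, c, hc⟩ := exists_fin hf
  obtain ⟨m, d, hd⟩ := exists_fin hg
  have h : (fun t => B (f t) (g t)) = fun t : ℚ =>
      ∑ i : Fin n, ∑ j : Fin m, t ^ ((i : ℕ) + j) • B (c i) (d j) := by
    funext t
    rw [hc, hd, map_sum B, LinearMap.sum_apply]
    refine Finset.sum_congr rfl fun i _ => ?_
    rw [map_sum]
    refine Finset.sum_congr rfl fun j _ => ?_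
    rw [map_smul, map_smul, LinearMap.smul_apply, smul_smul, pow_add, mul_comm]
  rw [h]
  exact pol_sum _ fun i _ => pol_sum _ fun j _ => pol_mon _ _

theorem pol_eval (b : ℚ[X]) : (fun t => b.eval t) ∈ Pol ℚ := by
  have h : (fun t => b.eval t) = fun t : ℚ =>
      ∑ i ∈ Finset.range (b.natDegree + 1), t ^ i • b.coeff i := by
    funext t
    rw [eval_eq_sum_range]
    exact Finset.sum_congr rfl fun i _ => by rw [smul_eq_mul, mul_comm]
  rw [h]
  exact pol_sum _ fun i _ => pol_mon _ _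

theorem pol_smul (b : ℚ[X]) {f : ℚ → M} (hf : f ∈ Pol M) :
    (fun t => b.eval t • f t) ∈ Pol M :=
  pol_bil (LinearMap.lsmul ℚ M) (pol_eval b) hf

theorem exists_poly {f : ℚ → ℚ} (hf : f ∈ Pol ℚ) : ∃ q : ℚ[X], ∀ t, f t = q.eval t := by
  obtain ⟨n, c, hc⟩ := exists_fin hf
  refine ⟨∑ j : Fin n, C (c j) * X ^ (j : ℕ), fun t => ?_⟩
  rw [hc, eval_finsetSum]
  refine Finset.sum_congr rfl fun j _ => ?_
  rw [eval_mul, eval_C, eval_pow, eval_X, smul_eq_mul, mul_comm]

theorem isRat_iff {f : ℚ → M} : IsRat f ↔ ∃ b : ℚ[X], b.eval 0 ≠ 0 ∧ ∃ p ∈ Pol M,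
    ∀ t : ℚ, b.eval t ≠ 0 → b.eval t • f t = p t := by
  constructor
  · rintro ⟨b, n, c, hb, h⟩
    exact ⟨b, hb, _, pol_sum _ fun (j : Fin n) _ => pol_mon (j : ℕ) (c j), h⟩
  · rintro ⟨b, hb, p, hp, h⟩
    obtain ⟨n, c, hc⟩ := exists_fin hp
    exact ⟨b, n, c, hb, fun t ht => by rw [h t ht, hc]⟩

theorem rat_of_pol {f : ℚ → M} (hf : f ∈ Pol M) : IsRat f :=
  isRat_iff.2 ⟨1, by simp, f, hf, fun t _ => by simp⟩

theorem rat_const (c : M) : IsRat fun _ : ℚ => c := by
  have h := rat_of_pol (pol_mon 0 c)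
  simpa using h

theorem rat_id : IsRat fun t : ℚ => t := by
  have h := rat_of_pol (pol_mon 1 (1 : ℚ))
  simpa using h

theorem rat_congr {f g : ℚ → M} (hf : IsRat f) (q : ℚ[X]) (hq : q.eval 0 ≠ 0)
    (h : ∀ t, q.eval t ≠ 0 → g t = f t) : IsRat g := by
  obtain ⟨b, hb, p, hp, h1⟩ := isRat_iff.1 hf
  refine isRat_iff.2 ⟨q * b, by rw [eval_mul]; exact mul_ne_zero hq hb, _, pol_smul q hp,
    fun t ht => ?_⟩
  rw [eval_mul] at ht ⊢
  rw [h t (left_ne_zero_of_mul ht), mul_smul, h1 t (right_ne_zero_of_mul ht)]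

theorem rat_add {f g : ℚ → M} (hf : IsRat f) (hg : IsRat g) : IsRat fun t => f t + g t := by
  obtain ⟨b, hb, p, hp, h1⟩ := isRat_iff.1 hf
  obtain ⟨b', hb', p', hp', h2⟩ := isRat_iff.1 hg
  refine isRat_iff.2 ⟨b * b', by rw [eval_mul]; exact mul_ne_zero hb hb', _,
    (Pol M).add_mem (pol_smul b' hp) (pol_smul b hp'), fun t ht => ?_⟩
  rw [eval_mul] at ht ⊢
  rw [Pi.add_apply, ← h1 t (left_ne_zero_of_mul ht), ← h2 t (right_ne_zero_of_mul ht), smul_add,
    smul_smul, smul_smul, mul_comm (b'.eval t)]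

theorem rat_bil (B : M →ₗ[ℚ] N →ₗ[ℚ] P) {f : ℚ → M} {g : ℚ → N} (hf : IsRat f)
    (hg : IsRat g) : IsRat fun t => B (f t) (g t) := by
  obtain ⟨b, hb, p, hp, h1⟩ := isRat_iff.1 hf
  obtain ⟨b', hb', p', hp', h2⟩ := isRat_iff.1 hg
  refine isRat_iff.2 ⟨b * b', by rw [eval_mul]; exact mul_ne_zero hb hb', _,
    pol_bil B hp hp', fun t ht => ?_⟩
  rw [eval_mul] at ht ⊢
  rw [← h1 t (left_ne_zero_of_mul ht), ← h2 t (right_ne_zero_of_mul ht), map_smul, map_smul,
    LinearMap.smul_apply, smul_smul, mul_comm]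

theorem rat_lin (L : M →ₗ[ℚ] N) {f : ℚ → M} (hf : IsRat f) : IsRat fun t => L (f t) := by
  have h := rat_bil ((LinearMap.lsmul ℚ N).compl₂ L) (rat_const 1) hf
  simpa using h

theorem rat_smul {c : ℚ → ℚ} {f : ℚ → M} (hc : IsRat c) (hf : IsRat f) :
    IsRat fun t => c t • f t :=
  rat_bil (LinearMap.lsmul ℚ M) hc hf

theorem rat_tsmul {f : ℚ → M} (hf : IsRat f) : IsRat fun t => t • f t := rat_smul rat_id hf

theorem rat_neg {f : ℚ → M} (hf : IsRat f) : IsRat fun t => -f t := rat_lin (-LinearMap.id) hf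

theorem rat_sum {ι : Type} (s : Finset ι) {f : ι → ℚ → M} (h : ∀ i ∈ s, IsRat (f i)) :
    IsRat fun t => ∑ i ∈ s, f i t := by
  classical
  induction s using Finset.induction_on with
  | empty => simpa using rat_const (0 : M)
  | insert i s hi ih =>
    simp only [Finset.sum_insert hi]
    exact rat_add (h i (Finset.mem_insert_self i s))
      (ih fun j hj => h j (Finset.mem_insert_of_mem hj))

theorem rat_prod {ι : Type} (s : Finset ι) {f : ι → ℚ → ℚ} (h : ∀ i ∈ s, IsRat (f i)) :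
    IsRat fun t => ∏ i ∈ s, f i t := by
  classical
  induction s using Finset.induction_on with
  | empty => simpa using rat_const (1 : ℚ)
  | insert i s hi ih =>
    simp only [Finset.prod_insert hi]
    exact rat_smul (h i (Finset.mem_insert_self i s))
      (ih fun j hj => h j (Finset.mem_insert_of_mem hj))

theorem rat_pair {f : ℚ → M} {g : ℚ → N} (hf : IsRat f) (hg : IsRat g) :
    IsRat fun t => (f t, g t) := by
  have h := rat_add (rat_lin (LinearMap.inl ℚ M N) hf) (rat_lin (LinearMap.inr ℚ M N) hg)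
  simpa using h

theorem rat_mul {R : Type} [Ring R] [Algebra ℚ R] {f g : ℚ → R} (hf : IsRat f) (hg : IsRat g) :
    IsRat fun t => f t * g t :=
  rat_bil (LinearMap.mul ℚ R) hf hg

theorem rat_multi {ι : Type} [Fintype ι] (τ : MultilinearMap ℚ (fun _ : ι => M) N)
    {y : ι → ℚ → M} (hy : ∀ i, IsRat (y i)) : IsRat fun t => τ fun i => y i t := by
  classical
  choose b n c hb h using hy
  refine isRat_iff.2 ⟨∏ i, b i, ?_, fun t => ∑ r : ∀ i, Fin (n i),
    t ^ (∑ i, (r i : ℕ)) • τ fun i => c i (r i), pol_sum _ fun r _ => pol_mon _ _, fun t ht => ?_⟩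
  · rw [eval_prod]
    exact Finset.prod_ne_zero_iff.2 fun i _ => hb i
  · rw [eval_prod] at ht ⊢
    rw [← τ.map_smul_univ]
    have h1 : (fun i => (b i).eval t • y i t) =
        fun i => ∑ j : Fin (n i), t ^ (j : ℕ) • c i j := by
      funext i
      exact h i t (Finset.prod_ne_zero_iff.1 ht i (Finset.mem_univ i))
    rw [h1, τ.map_sum]
    refine Finset.sum_congr rfl fun r _ => ?_
    rw [τ.map_smul_univ, Finset.prod_pow_eq_pow_sum]

/-- The inverse of a rational function which does not vanish at zero. -/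
theorem rat_inv {d : ℚ → ℚ} (hd : IsRat d) (h0 : d 0 ≠ 0) :
    IsRat (fun t => (d t)⁻¹) ∧ ∃ q : ℚ[X], q.eval 0 ≠ 0 ∧ ∀ t, q.eval t ≠ 0 → d t ≠ 0 := by
  obtain ⟨b, hb, p, hp, h1⟩ := isRat_iff.1 hd
  obtain ⟨q, hq⟩ := exists_poly hp
  have hq0 : q.eval 0 ≠ 0 := by
    rw [← hq, ← h1 0 hb, smul_eq_mul]
    exact mul_ne_zero hb h0
  have hqb : (q * b).eval 0 ≠ 0 := by
    rw [eval_mul]
    exact mul_ne_zero hq0 hb
  have h2 : ∀ t, (q * b).eval t ≠ 0 → d t ≠ 0 := by
    intro t ht h3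
    rw [eval_mul] at ht
    apply left_ne_zero_of_mul ht
    rw [← hq, ← h1 t (right_ne_zero_of_mul ht), h3, smul_zero]
  refine ⟨isRat_iff.2 ⟨q * b, hqb, _, pol_eval (b * b), fun t ht => ?_⟩, q * b, hqb, h2⟩
  have h3 := h2 t ht
  rw [eval_mul] at ht
  rw [eval_mul, eval_mul, ← hq, ← h1 t (right_ne_zero_of_mul ht), smul_eq_mul, smul_eq_mul]
  field_simp

theorem rat_det {n : Type} [Fintype n] [DecidableEq n] {A : ℚ → Matrix n n ℚ}
    (h : ∀ i j, IsRat fun t => A t i j) : IsRat fun t => (A t).det := by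
  simp only [Matrix.det_apply']
  exact rat_sum _ fun s _ => rat_mul (rat_const _) (rat_prod _ fun i _ => h _ _)

/-- The inverse in an algebra of finite dimension. -/
theorem rat_ringInv {R : Type} [Ring R] [Algebra ℚ R] [FiniteDimensional ℚ R] {A : ℚ → R}
    (hA : IsRat A) (h0 : A 0 = 1) :
    ∃ (B : ℚ → R) (q : ℚ[X]), IsRat B ∧ q.eval 0 ≠ 0 ∧ ∀ t, q.eval t ≠ 0 → A t * B t = 1 := by
  classical
  set e := Module.finBasis ℚ R
  set L : R →ₐ[ℚ] Matrix _ _ ℚ := Algebra.leftMulMatrix e with hL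
  have h1 : ∀ i j, IsRat fun t => L (A t) i j := fun i j =>
    rat_lin ((Matrix.entryLinearMap ℚ ℚ i j).comp L.toLinearMap) hA
  obtain ⟨h2, q, hq, h3⟩ := rat_inv (rat_det h1)
    (by rw [h0, map_one, Matrix.det_one]; exact one_ne_zero)
  have h4 : ∀ i j, IsRat fun t => (L (A t)).adjugate i j := by
    intro i j
    simp only [Matrix.adjugate_apply]
    refine rat_det fun k l => ?_
    simp only [Matrix.updateRow_apply]
    split_ifs
    · exact rat_const _
    · exact h1 _ _
  refine ⟨fun t => ∑ i, (((L (A t)).det)⁻¹ * ∑ j, (L (A t)).adjugate i j * e.repr 1 j) • e i, q,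
    rat_sum _ fun i _ => rat_smul (rat_mul h2 (rat_sum _ fun j _ =>
      rat_mul (h4 i j) (rat_const _))) (rat_const _), hq, fun t ht => ?_⟩
  apply e.repr.injective
  apply DFunLike.coe_injective
  rw [← Algebra.leftMulMatrix_mulVec_repr, e.repr_sum_self]
  have h5 : (fun i => ((L (A t)).det)⁻¹ * ∑ j, (L (A t)).adjugate i j * e.repr 1 j) =
      ((L (A t)).det)⁻¹ • (L (A t)).adjugate.mulVec (e.repr 1) := rfl
  rw [h5, Matrix.mulVec_smul, Matrix.mulVec_mulVec, ← hL, Matrix.mul_adjugate, Matrix.smul_mulVec,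
    Matrix.one_mulVec, smul_smul, inv_mul_cancel₀ (h3 t ht), one_smul]

/-- Uniqueness of the first coefficient. -/
theorem eq_zero_of_rat {a : ℚ} {g : ℚ → ℚ} (hg : IsRat g) (b : ℚ[X]) (hb : b.eval 0 ≠ 0)
    (h : ∀ t, b.eval t ≠ 0 → t * a + t ^ 2 * g t = 0) : a = 0 := by
  obtain ⟨b', hb', p, hp, h1⟩ := isRat_iff.1 hg
  obtain ⟨q, hq⟩ := exists_poly hp
  have h2 : b * b' * X * (C a * b' + X * q) = 0 := by
    apply Polynomial.funext
    intro t
    rw [eval_zero, eval_mul, eval_mul, eval_mul, eval_X, eval_add, eval_mul, eval_mul, eval_C,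
      eval_X]
    by_cases h3 : b.eval t = 0
    · rw [h3]
      ring
    by_cases h4 : b'.eval t = 0
    · rw [h4]
      ring
    have h5 := h1 t h4
    rw [hq, smul_eq_mul] at h5
    rw [← h5]
    linear_combination (b.eval t * b'.eval t * b'.eval t) * h t h3
  have h6 : b ≠ 0 := fun h => hb (by rw [h, eval_zero])
  have h7 : b' ≠ 0 := fun h => hb' (by rw [h, eval_zero])
  have h8 := (mul_eq_zero.1 h2).resolve_left (mul_ne_zero (mul_ne_zero h6 h7) X_ne_zero)
  have h9 := congrArg (eval 0) h8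
  rw [eval_add, eval_mul, eval_mul, eval_C, eval_X, zero_mul, add_zero, eval_zero] at h9
  exact (mul_eq_zero.1 h9).resolve_right hb'

end pol

section tan

variable {V : Type} [AddCommGroup V] [Module ℚ V] (T : Forms V)

/-- The tangent vectors belong to the Lie algebra. -/
theorem tan_le_lie {X : Module.End ℚ V} (hX : X ∈ T.tan) : X ∈ T.lie := by
  classical
  obtain ⟨g, b, hg, hb, h⟩ := hX
  intro i x
  have h1 : ∀ j, IsRat fun t => g t (x j) := fun j => rat_lin (LinearMap.applyₗ (x j)) hg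
  have h2 : ∀ j, IsRat fun t => X (x j) + t • g t (x j) := fun j =>
    rat_add (rat_const _) (rat_tsmul (h1 j))
  have h3 : ∀ s : Finset (Fin (T.deg i)), IsRat fun t =>
      T.τ i (s.piecewise (fun j => X (x j) + t • g t (x j)) x) := by
    intro s
    refine rat_multi (T.τ i) (y := fun j t => s.piecewise (fun j => X (x j) + t • g t (x j)) x j)
      fun j => ?_
    by_cases hj : j ∈ s
    · simp only [Finset.piecewise_eq_of_mem _ _ _ hj]
      exact h2 j
    · simp only [Finset.piecewise_eq_of_notMem _ _ _ hj]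
      exact rat_const _
  have h4 : IsRat fun t => (T.τ i).linearDeriv x (fun j => g t (x j)) +
      ∑ s : Finset (Fin (T.deg i)) with 2 ≤ s.card, t ^ (s.card - 2) *
        T.τ i (s.piecewise (fun j => X (x j) + t • g t (x j)) x) := by
    refine rat_add ?_ (rat_sum _ fun s _ => rat_mul ?_ (h3 s))
    · exact rat_lin (((T.τ i).linearDeriv x).comp
        (LinearMap.pi fun j => LinearMap.applyₗ (x j))) hg
    · simpa using rat_of_pol (pol_mon (s.card - 2) (1 : ℚ))
  rw [← MultilinearMap.linearDeriv_apply]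
  refine eq_zero_of_rat h4 b hb fun t ht => ?_
  obtain ⟨u, hu, h5⟩ := h t ht
  have h6 := hu i x
  have h7 : (fun j => u (x j)) = x + fun j => t • (X (x j) + t • g t (x j)) := by
    funext j
    have h8 := congrArg (fun f : Module.End ℚ V => f (x j)) h5
    simp only [LinearEquiv.coe_coe, LinearMap.add_apply, Module.End.one_apply,
      LinearMap.smul_apply] at h8
    rw [h8, Pi.add_apply, smul_add, smul_smul, ← pow_two, add_assoc]
  rw [h7, MultilinearMap.map_add_eq_map_add_linearDeriv_add, add_assoc, add_eq_left] at h6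
  have h9 : (fun j => t • (X (x j) + t • g t (x j))) =
      t • ((fun j => X (x j)) + t • fun j => g t (x j)) := rfl
  rw [← h6, mul_add, ← add_assoc, Finset.mul_sum]
  congr 1
  · rw [h9, map_smul, map_add, map_smul, smul_eq_mul, smul_eq_mul]
    ring
  · refine Finset.sum_congr rfl fun s hs => ?_
    have h10 := (Finset.mem_filter.1 hs).2
    have h11 := (T.τ i).map_piecewise_smul (fun _ => t)
      (s.piecewise (fun j => X (x j) + t • g t (x j)) x) s
    have h12 : s.piecewise (fun j => t • s.piecewise (fun j => X (x j) + t • g t (x j)) x j)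
        (s.piecewise (fun j => X (x j) + t • g t (x j)) x) =
        s.piecewise (fun j => t • (X (x j) + t • g t (x j))) x := by
      funext j
      by_cases hj : j ∈ s
      · simp only [Finset.piecewise_eq_of_mem _ _ _ hj]
      · simp only [Finset.piecewise_eq_of_notMem _ _ _ hj]
    rw [h12, Finset.prod_const] at h11
    rw [h11, ← mul_assoc, ← pow_add, Nat.add_sub_cancel' h10, smul_eq_mul]

/-- A tangent vector from a curve which is given pointwise. -/
theorem tan_of_point [FiniteDimensional ℚ V] (X : Module.End ℚ V) (G : ℚ → V → V)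
    (hG : ∀ v, IsRat fun t => G t v) (b : ℚ[X]) (hb : b.eval 0 ≠ 0)
    (h : ∀ t, b.eval t ≠ 0 → ∃ u ∈ T.grp, ∀ v, u v = v + t • X v + t ^ 2 • G t v) :
    X ∈ T.tan := by
  classical
  set e := Module.finBasis ℚ V
  refine ⟨fun t => ∑ i, (e.coord i).smulRight (G t (e i)), b,
    rat_sum _ fun i _ => rat_lin (LinearMap.smulRightₗ (e.coord i)) (hG _), hb, fun t ht => ?_⟩
  obtain ⟨u, hu, h1⟩ := h t ht
  refine ⟨u, hu, e.ext fun j => ?_⟩
  have h2 : (∑ i, (e.coord i).smulRight (G t (e i))) (e j) = G t (e j) := by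
    rw [LinearMap.sum_apply, Finset.sum_eq_single j]
    · simp
    · intro i _ hij
      simp [hij.symm]
    · intro h3
      exact absurd (Finset.mem_univ j) h3
  simp only [LinearEquiv.coe_coe, LinearMap.add_apply, Module.End.one_apply,
      LinearMap.smul_apply, h2]
  exact h1 _

/-- The determinant of an isometry of a nondegenerate bilinear form. -/
theorem abs_det_eq_one [FiniteDimensional ℚ V] (B : V →ₗ[ℚ] V →ₗ[ℚ] ℚ)
    (hB : ∀ y, (∀ x, B x y = 0) → y = 0) (g : Module.End ℚ V)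
    (hg : ∀ x y, B (g x) (g y) = B x y) : |LinearMap.det g| = 1 := by
  classical
  set e := Module.finBasis ℚ V
  have h1 : LinearMap.BilinForm.toMatrix e (LinearMap.BilinForm.comp B g g) =
      LinearMap.BilinForm.toMatrix e B := by
    congr 1
    ext x y
    exact hg x y
  rw [LinearMap.BilinForm.toMatrix_comp e e] at h1
  have h2 := congrArg Matrix.det h1
  rw [Matrix.det_mul, Matrix.det_mul, Matrix.det_transpose, LinearMap.det_toMatrix] at h2
  have h3 : (LinearMap.BilinForm.toMatrix e B).det ≠ 0 := by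
    intro h
    obtain ⟨v, hv, h4⟩ := Matrix.exists_mulVec_eq_zero_iff.2 h
    apply hv
    have h5 : e.equivFun.symm v = 0 := by
      refine hB _ fun x => ?_
      have h6 := LinearMap.BilinForm.dotProduct_toMatrix_mulVec e B (e.equivFun x) v
      rw [h4, dotProduct_zero, LinearEquiv.symm_apply_apply] at h6
      exact h6.symm
    exact e.equivFun.symm.injective (by rw [h5, map_zero])
  have h4 : LinearMap.det g * LinearMap.det g = 1 := by
    apply mul_right_cancel₀ h3
    linear_combination h2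
  rcases mul_self_eq_one_iff.1 h4 with h5 | h5
  · rw [h5, abs_one]
  · rw [h5, abs_neg, abs_one]

end tan

end Vale.Agent.P011N.E2
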