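import Vale.Agent.P011.H327.Star.Main

/-!
The Lie algebra of the cubic norm is simple, and its commutant consists of the scalars.
-/

open Vale.Agent.P011.MPQ Vale.Agent.P011.D4 Vale.Agent.P011.D4.Oct

set_option linter.unusedSectionVars false
set_option linter.unusedSimpArgs false

namespace Vale.Agent.P011N.E2

open Vale.Agent.P011.E6 Vale.Agent.P011.E6.Alb Vale.Agent.P011.H327.Star

variable {F : Type} [Field F] {a b c : Fˣ}

/-- The components in the eigenspaces belong to an invariant subspace. -/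
theorem mem_of_eig {M : Type} [AddCommGroup M] [Module F M] (U : Submodule F M) (δ : M →ₗ[F] M)
    (hU : ∀ y ∈ U, δ y ∈ U) {ι : Type} (w : ι → F) (hw : Function.Injective w) (s : Finset ι) :
    ∀ y : ι → M, (∀ i, δ (y i) = w i • y i) → ∑ i ∈ s, y i ∈ U → ∀ i ∈ s, y i ∈ U := by
  classical
  induction s using Finset.induction_on with
  | empty => intro y _ _ i hi; exact absurd hi (Finset.notMem_empty i)
  | insert j s hj ih =>
    intro y hy hs
    rw [Finset.sum_insert hj] at hs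
    have h1 : ∑ i ∈ s, (w i - w j) • y i ∈ U := by
      have h2 := U.sub_mem (hU _ hs) (U.smul_mem (w j) hs)
      have h3 : δ (y j + ∑ i ∈ s, y i) - w j • (y j + ∑ i ∈ s, y i) =
          ∑ i ∈ s, (w i - w j) • y i := by
        rw [map_add, map_sum, hy, smul_add, add_sub_add_left_eq_sub, Finset.smul_sum,
          ← Finset.sum_sub_distrib]
        exact Finset.sum_congr rfl fun i _ => by rw [hy, sub_smul]
      rwa [h3] at h2
    have h4 : ∀ i ∈ s, y i ∈ U := by
      intro i hi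
      have h5 := ih (fun i => (w i - w j) • y i) (fun i => by rw [map_smul, hy, smul_comm]) h1 i hi
      have h6 : w i - w j ≠ 0 := sub_ne_zero.2 fun h => hj (hw h ▸ hi)
      exact (U.smul_mem_iff h6).1 h5
    intro i hi
    rcases Finset.mem_insert.1 hi with rfl | h
    · have h7 := U.sub_mem hs (U.sum_mem h4)
      rwa [add_sub_cancel_right] at h7
    · exact h4 i h

/-- The diagonal operators. -/
def Hd (r s t : F) : Module.End F (Alb a b c) where
  toFun x := ⟨2 * r * x.d1, 2 * s * x.d2, 2 * t * x.d3, (s + t) • x.x1, (t + r) • x.x2,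
    (r + s) • x.x3⟩
  map_add' x y := by
    ext1 <;> simp [mul_add]
  map_smul' u x := by
    ext1 <;> simp [mul_left_comm, smul_comm u]

theorem Hd_apply (r s t : F) (x : Alb a b c) : Hd r s t x =
    ⟨2 * r * x.d1, 2 * s * x.d2, 2 * t * x.d3, (s + t) • x.x1, (t + r) • x.x2,
      (r + s) • x.x3⟩ := rfl

theorem Hd_comm (r s t r' s' t' : F) :
    (Hd r s t * Hd r' s' t' : Module.End F (Alb a b c)) = Hd r' s' t' * Hd r s t := by
  refine LinearMap.ext fun x => ?_
  rw [Module.End.mul_apply, Module.End.mul_apply]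
  apply Alb.ext <;> simp only [Hd_apply]
  · ring
  · ring
  · ring
  · exact smul_comm _ _ _
  · exact smul_comm _ _ _
  · exact smul_comm _ _ _

theorem H3_eq : (P3 1 * M3 1 - M3 1 * P3 1 : Module.End F (Alb a b c)) = Hd 1 (-1) 0 := by
  refine LinearMap.ext fun x => ?_
  rw [brk_P3_M3, Hd_apply]
  apply Alb.ext <;> simp [bil_self]

theorem H1_eq : (P1 1 * M1 1 - M1 1 * P1 1 : Module.End F (Alb a b c)) = Hd 0 1 (-1) := by
  refine LinearMap.ext fun x => ?_
  rw [brk_P1_M1, Hd_apply]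
  apply Alb.ext <;> simp [bil_self]

theorem Hd_P1 (r s t : F) (u : Oct a b c) :
    Hd r s t * P1 u - P1 u * Hd r s t = (s - t) • P1 u := by
  refine LinearMap.ext fun x => ?_
  rw [LinearMap.sub_apply, Module.End.mul_apply, Module.End.mul_apply, LinearMap.smul_apply]
  apply Alb.ext <;> simp only [Hd_apply, P1_apply, d1_sub, d2_sub, d3_sub, x1_sub, x2_sub, x3_sub,
    d1_smul, d2_smul, d3_smul, x1_smul, x2_smul, x3_smul, bil_smul_right, mul_smul_oct,
    star_smul_oct, mul_zero, smul_zero, sub_zero]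
  · ring
  · module
  · module

theorem Hd_P2 (r s t : F) (u : Oct a b c) :
    Hd r s t * P2 u - P2 u * Hd r s t = (t - r) • P2 u := by
  refine LinearMap.ext fun x => ?_
  rw [LinearMap.sub_apply, Module.End.mul_apply, Module.End.mul_apply, LinearMap.smul_apply]
  apply Alb.ext <;> simp only [Hd_apply, P2_apply, d1_sub, d2_sub, d3_sub, x1_sub, x2_sub, x3_sub,
    d1_smul, d2_smul, d3_smul, x1_smul, x2_smul, x3_smul, bil_smul_right, mul_smul_oct,
    star_smul_oct, mul_zero, smul_zero, sub_zero]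
  · ring
  · module
  · module

theorem Hd_P3 (r s t : F) (u : Oct a b c) :
    Hd r s t * P3 u - P3 u * Hd r s t = (r - s) • P3 u := by
  refine LinearMap.ext fun x => ?_
  rw [LinearMap.sub_apply, Module.End.mul_apply, Module.End.mul_apply, LinearMap.smul_apply]
  apply Alb.ext <;> simp only [Hd_apply, P3_apply, d1_sub, d2_sub, d3_sub, x1_sub, x2_sub, x3_sub,
    d1_smul, d2_smul, d3_smul, x1_smul, x2_smul, x3_smul, bil_smul_right, mul_smul_oct,
    star_smul_oct, mul_zero, smul_zero, sub_zero]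
  · ring
  · module
  · module

theorem Hd_M1 (r s t : F) (u : Oct a b c) :
    Hd r s t * M1 u - M1 u * Hd r s t = (t - s) • M1 u := by
  refine LinearMap.ext fun x => ?_
  rw [LinearMap.sub_apply, Module.End.mul_apply, Module.End.mul_apply, LinearMap.smul_apply]
  apply Alb.ext <;> simp only [Hd_apply, M1_apply, d1_sub, d2_sub, d3_sub, x1_sub, x2_sub, x3_sub,
    d1_smul, d2_smul, d3_smul, x1_smul, x2_smul, x3_smul, bil_smul_right, mul_smul_oct,
    star_smul_oct, mul_zero, smul_zero, sub_zero]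
  · ring
  · module
  · module

theorem Hd_M2 (r s t : F) (u : Oct a b c) :
    Hd r s t * M2 u - M2 u * Hd r s t = (r - t) • M2 u := by
  refine LinearMap.ext fun x => ?_
  rw [LinearMap.sub_apply, Module.End.mul_apply, Module.End.mul_apply, LinearMap.smul_apply]
  apply Alb.ext <;> simp only [Hd_apply, M2_apply, d1_sub, d2_sub, d3_sub, x1_sub, x2_sub, x3_sub,
    d1_smul, d2_smul, d3_smul, x1_smul, x2_smul, x3_smul, bil_smul_right, mul_smul_oct,
    star_smul_oct, mul_zero, smul_zero, sub_zero]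
  · ring
  · module
  · module

theorem Hd_M3 (r s t : F) (u : Oct a b c) :
    Hd r s t * M3 u - M3 u * Hd r s t = (s - r) • M3 u := by
  refine LinearMap.ext fun x => ?_
  rw [LinearMap.sub_apply, Module.End.mul_apply, Module.End.mul_apply, LinearMap.smul_apply]
  apply Alb.ext <;> simp only [Hd_apply, M3_apply, d1_sub, d2_sub, d3_sub, x1_sub, x2_sub, x3_sub,
    d1_smul, d2_smul, d3_smul, x1_smul, x2_smul, x3_smul, bil_smul_right, mul_smul_oct,
    star_smul_oct, mul_zero, smul_zero, sub_zero]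
  · ring
  · module
  · module

theorem alb_expand (x : Alb a b c) :
    x = x.d1 • e1 + x.d2 • e2 + x.d3 • e3 + o1 x.x1 + o2 x.x2 + o3 x.x3 := by
  apply Alb.ext <;> simp [Alb.e1, Alb.e2, Alb.e3, o1, o2, o3]

variable [CharZero F]

theorem dr_Hd : Dr (Hd 2 1 (-3) : Module.End F (Alb a b c)) := by
  have h : (Hd 2 1 (-3) : Module.End F (Alb a b c)) =
      (2 : F) • Hd 1 (-1) 0 + (3 : F) • Hd 0 1 (-1) := by
    refine LinearMap.ext fun x => ?_
    rw [LinearMap.add_apply, LinearMap.smul_apply, LinearMap.smul_apply]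
    apply Alb.ext <;> simp only [Hd_apply, d1_add, d2_add, d3_add, x1_add, x2_add, x3_add,
      d1_smul, d2_smul, d3_smul, x1_smul, x2_smul, x3_smul]
    · ring
    · ring
    · ring
    · module
    · module
    · module
  rw [h, ← H3_eq, ← H1_eq]
  exact (((dr_P3 _).brk (dr_M3 _)).smul _).add (((dr_P1 _).brk (dr_M1 _)).smul _)

theorem Hd_comm_kl (r s t : F) {K : Module.End F (Alb a b c)} (hK : Dr K) (hk : Kl K) :
    Hd r s t * K = K * Hd r s t := by
  refine LinearMap.ext fun x => ?_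
  rw [Module.End.mul_apply, Module.End.mul_apply]
  have h1 : ∀ y : Alb a b c, K y = K (o1 y.x1) + K (o2 y.x2) + K (o3 y.x3) := by
    intro y
    conv_lhs => rw [alb_expand y]
    rw [map_add, map_add, map_add, map_add, map_add, map_smul, map_smul, map_smul, hk.1, hk.2.1,
      hk.2.2, smul_zero, smul_zero, smul_zero, zero_add, zero_add, zero_add]
  have e1 : ∀ (u : F) (w : Oct a b c), (o1 (u • w) : Alb a b c) = u • o1 w := fun u w => by
    apply Alb.ext <;> simp [o1]
  have e2 : ∀ (u : F) (w : Oct a b c), (o2 (u • w) : Alb a b c) = u • o2 w := fun u w => by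
    apply Alb.ext <;> simp [o2]
  have e3 : ∀ (u : F) (w : Oct a b c), (o3 (u • w) : Alb a b c) = u • o3 w := fun u w => by
    apply Alb.ext <;> simp [o3]
  rw [h1 (Hd r s t x), h1 x]
  simp only [Hd_apply r s t x, e1, e2, e3, map_smul, map_add]
  rw [hK.on1 hk, hK.on2 hk, hK.on3 hk]
  apply Alb.ext <;> simp [Hd_apply, o1, o2, o3]

/-- The part of weight zero. -/
def Z0 (Y : Module.End F (Alb a b c)) : Module.End F (Alb a b c) :=
  Y - (P3 (Y e2).x3 + M3 (star (Y e1).x3) + P1 (Y e3).x1 + M1 (star (Y e2).x1) + P2 (Y e1).x2 +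
    M2 (star (Y e3).x2))

theorem Hd_Z0 (r s t : F) {Y : Module.End F (Alb a b c)} (hY : Dr Y) :
    Hd r s t * Z0 Y = Z0 Y * Hd r s t := by
  set A : Module.End F (Alb a b c) := Rd (Y e1) (Y e2) (Y e3) with hA
  have hAD : Dr A := by
    refine Dr.sub (Dr.add (Dr.add (Dr.add (Dr.add (Dr.add (Dr.add ?_ ?_) ?_)
      ?_) ?_) ?_) (Dr.smul _ ?_)) (Dr.smul _ ?_)
    · exact dr_P3 _
    · exact dr_M3 _
    · exact dr_P1 _
    · exact dr_M1 _
    · exact dr_P2 _
    · exact dr_M2 _
    · exact (dr_P3 _).brk (dr_M3 _)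
    · exact (dr_P1 _).brk (dr_M1 _)
  obtain ⟨p1, p2, p3⟩ := hY.at1
  obtain ⟨q1, q2, q3⟩ := hY.at2
  obtain ⟨r1, r2, r3⟩ := hY.at3
  have hs := hY.sum
  have hK : Kl (Y - A) := by
    refine ⟨?_, ?_, ?_⟩ <;> rw [LinearMap.sub_apply, hA]
    · rw [Rd_e1 _ _ _ p1 p2 p3, sub_self]
    · rw [Rd_e2 _ _ _ q1 q2 q3 hs, sub_self]
    · rw [Rd_e3 _ _ _ r1 r2 r3, sub_self]
  have h1 : Z0 Y = (Y - A) + ((Y e1).d1 / 2) • Hd 1 (-1) 0 - ((Y e3).d3 / 2) • Hd 0 1 (-1) := by
    rw [Z0, hA, Rd, H3_eq, H1_eq]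
    abel
  rw [h1, mul_sub, mul_add, sub_mul, add_mul, Hd_comm_kl r s t (hY.sub hAD) hK, mul_smul_comm,
    mul_smul_comm, smul_mul_assoc, smul_mul_assoc, Hd_comm r s t, Hd_comm r s t]

/-- The commutant consists of the scalars. -/
theorem scalar_of_comm {Y : Module.End F (Alb a b c)}
    (h : ∀ X : Module.End F (Alb a b c), Dr X → X * Y = Y * X) : ∃ t : F, ∀ x, Y x = t • x := by
  have hc : ∀ X : Module.End F (Alb a b c), Dr X → ∀ x, X (Y x) = Y (X x) := fun X hX x =>
    congrArg (fun f : Module.End F (Alb a b c) => f x) (h X hX)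
  have z3 : ∀ u : Oct a b c, P3 u (e1 : Alb a b c) = 0 := fun u => by
    apply Alb.ext <;> simp [P3_apply, Alb.e1]
  have z2 : ∀ u : Oct a b c, M2 u (e1 : Alb a b c) = 0 := fun u => by
    apply Alb.ext <;> simp [M2_apply, Alb.e1]
  have y3 : ∀ u : Oct a b c, P3 u (Y e1) = 0 := fun u => by
    rw [hc _ (dr_P3 u), z3, map_zero]
  have y2 : ∀ u : Oct a b c, M2 u (Y e1) = 0 := fun u => by
    rw [hc _ (dr_M2 u), z2, map_zero]
  have one_ne : ∀ s : F, s • (1 : Oct a b c) = 0 → s = 0 := fun s hs => by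
    simpa using congrArg (fun z : Oct a b c => z.fst.re) hs
  have h1 : Y e1 = (Y e1).d1 • e1 := by
    generalize Y e1 = y at y2 y3
    apply Alb.ext
    · simp [Alb.e1]
    · have h2 : y.d2 • (1 : Oct a b c) = 0 := congrArg Alb.x3 (y3 1)
      simp [Alb.e1, one_ne _ h2]
    · have h2 : y.d3 • star (1 : Oct a b c) = 0 := congrArg Alb.x2 (y2 1)
      rw [star_one] at h2
      simp [Alb.e1, one_ne _ h2]
    · have h2 : star (1 * y.x1) = 0 := congrArg Alb.x2 (y3 1)
      rw [one_mul, star_eq_zero] at h2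
      simp [Alb.e1, h2]
    · have h2 : y.x2 = 0 := eq_zero_of_bil fun u => by
        have h3 : bil (star (star u)) y.x2 = 0 := congrArg Alb.d1 (y2 (star u))
        rwa [star_star, bil_comm] at h3
      simp [Alb.e1, h2]
    · have h2 : y.x3 = 0 := eq_zero_of_bil fun u => by
        have h3 : bil u y.x3 = 0 := congrArg Alb.d1 (y3 u)
        rwa [bil_comm] at h3
      simp [Alb.e1, h2]
  generalize (Y e1).d1 = t at h1
  have st : ∀ X : Module.End F (Alb a b c), Dr X → ∀ x, Y x = t • x → Y (X x) = t • X x :=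
    fun X hX x hx => by rw [← hc X hX, hx, map_smul]
  have k3 : ∀ w : Oct a b c, Y (o3 w) = t • o3 w := fun w => by
    have h2 : M3 (star w) (e1 : Alb a b c) = o3 w := by
      apply Alb.ext <;> simp [M3_apply, Alb.e1, o3]
    rw [← h2]
    exact st _ (dr_M3 _) _ h1
  have k2 : ∀ w : Oct a b c, Y (o2 w) = t • o2 w := fun w => by
    have h2 : P2 w (e1 : Alb a b c) = o2 w := by
      apply Alb.ext <;> simp [P2_apply, Alb.e1, o2]
    rw [← h2]
    exact st _ (dr_P2 _) _ h1
  have k1 : ∀ w : Oct a b c, Y (o1 w) = t • o1 w := fun w => by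
    have h2 : P2 1 (o3 (star w) : Alb a b c) = o1 w := by
      apply Alb.ext <;> simp [P2_apply, o3, o1]
    rw [← h2]
    exact st _ (dr_P2 _) _ (k3 _)
  have l2 : Y e2 = t • e2 := by
    have h2 : M3 1 (o3 ((2 : F)⁻¹ • 1) : Alb a b c) = e2 := by
      apply Alb.ext <;> simp [M3_apply, o3, Alb.e2, bil_smul_right, bil_self]
    rw [← h2]
    exact st _ (dr_M3 _) _ (k3 _)
  have l3 : Y e3 = t • e3 := by
    have h2 : P2 1 (o2 ((2 : F)⁻¹ • 1) : Alb a b c) = e3 := by
      apply Alb.ext <;> simp [P2_apply, o2, Alb.e3, bil_smul_right, bil_self]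
    rw [← h2]
    exact st _ (dr_P2 _) _ (k2 _)
  refine ⟨t, fun x => ?_⟩
  conv_lhs => rw [alb_expand x]
  conv_rhs => rw [alb_expand x]
  rw [map_add, map_add, map_add, map_add, map_add, map_smul, map_smul, map_smul, h1, l2, l3, k1,
    k2, k3]
  module

theorem eq_zero_of_comm {Y : Module.End F (Alb a b c)} (hY : Dr Y)
    (h : ∀ X : Module.End F (Alb a b c), Dr X → X * Y = Y * X) : Y = 0 := by
  obtain ⟨t, ht⟩ := scalar_of_comm h
  have h1 := hY.sum
  rw [ht, ht, ht] at h1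
  have h2 : t = 0 := by
    simp only [d1_smul, d2_smul, d3_smul, Alb.e1, Alb.e2, Alb.e3, mul_one] at h1
    linear_combination (3 : F)⁻¹ * h1
  exact LinearMap.ext fun x => by rw [ht, h2, zero_smul, LinearMap.zero_apply]

/-- The commutant of an operator. -/
def Cm (Y : Module.End F (Alb a b c)) : Submodule F (Module.End F (Alb a b c)) where
  carrier := {X | X * Y = Y * X}
  zero_mem' := by simp
  add_mem' := fun {X X'} h h' => by
    change (X + X') * Y = Y * (X + X')
    rw [add_mul, mul_add, h, h']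
  smul_mem' := fun t X h => by
    change (t • X) * Y = Y * (t • X)
    rw [smul_mul_assoc, mul_smul_comm, h]

theorem Cm_brk (Y : Module.End F (Alb a b c)) :
    ∀ X ∈ Cm Y, ∀ X' ∈ Cm Y, X * X' - X' * X ∈ Cm Y := by
  intro X h X' h'
  have h1 : Commute X Y := h
  have h2 : Commute X' Y := h'
  exact (h1.mul_left h2).sub_left (h2.mul_left h1)

/-- The octonion algebras are simple. -/
theorem oct_simple (I : Submodule F (Oct a b c)) (hl : ∀ u ∈ I, ∀ v, v * u ∈ I)
    (hr : ∀ u ∈ I, ∀ v, u * v ∈ I) {u : Oct a b c} (hu : u ∈ I) (h0 : u ≠ 0) (v : Oct a b c) :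
    v ∈ I := by
  have key : ∀ u ∈ I, ∀ v, bil u v • (1 : Oct a b c) - bil u 1 • v ∈ I := by
    intro u hu v
    have h1 := mul_star_add u v
    rw [star_eq u, mul_sub, mul_smul_oct, mul_one] at h1
    have h2 : bil u v • (1 : Oct a b c) - bil u 1 • v = u * star v - v * u := by
      rw [← h1]
      abel
    rw [h2]
    exact I.sub_mem (hr u hu _) (hl u hu _)
  have pure : ∀ u ∈ I, u ≠ 0 → bil u 1 = 0 → (1 : Oct a b c) ∈ I := by
    intro u hu h0 h1
    obtain ⟨v, hv⟩ : ∃ v, bil u v ≠ 0 := by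
      by_contra h
      push Not at h
      exact h0 (eq_zero_of_bil h)
    have h2 := key u hu v
    rw [h1, zero_smul, sub_zero] at h2
    exact (I.smul_mem_iff hv).1 h2
  have h1 : (1 : Oct a b c) ∈ I := by
    by_cases h : bil u 1 = 0
    · exact pure u hu h0 h
    · have h2 := key u hu gi
      have h3 := I.sub_mem (hl _ h2 gj) (hr _ h2 gj)
      have h4 : gj * (bil u gi • (1 : Oct a b c) - bil u 1 • gi) -
          (bil u gi • (1 : Oct a b c) - bil u 1 • gi) * gj =
          (2 * bil u 1) • (⟨⟨0, 0, 0, 1⟩, 0⟩ : Oct a b c) := by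
        apply ext8 <;> simp [gi, gj]
        ring
      rw [h4] at h3
      refine pure _ ((I.smul_mem_iff (mul_ne_zero two_ne_zero h)).1 h3) ?_ ?_
      · intro h5
        simpa using congrArg (fun z : Oct a b c => z.fst.imK) h5
      · simp [bil_eq]
  have h2 := hr _ h1 v
  rwa [one_mul] at h2

section ideal

variable {U : Submodule F (Module.End F (Alb a b c))}
  (hU : ∀ X : Module.End F (Alb a b c), Dr X → ∀ Y ∈ U, X * Y - Y * X ∈ U)

include hU

theorem brk_left {X Y : Module.End F (Alb a b c)} (hX : X ∈ U) (hY : Dr Y) :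
    X * Y - Y * X ∈ U := by
  have h := U.neg_mem (hU Y hY X hX)
  rwa [neg_sub] at h

theorem has_of {u : Oct a b c}
    (h : P1 u ∈ U ∨ P2 u ∈ U ∨ P3 u ∈ U ∨ M1 u ∈ U ∨ M2 u ∈ U ∨ M3 u ∈ U) : Has U u := by
  have a1 : P1 u ∈ U → M3 u ∈ U := fun h => by
    have h1 := brk_left hU h (dr_P2 1)
    rwa [brk_P1_P2, mul_one] at h1
  have a2 : M3 u ∈ U → P2 u ∈ U := fun h => by
    have h1 := hU _ (dr_M1 1) _ h
    rwa [brk_M1_M3, one_mul] at h1
  have a3 : P2 u ∈ U → M1 u ∈ U := fun h => by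
    have h1 := brk_left hU h (dr_P3 1)
    rwa [brk_P2_P3, mul_one] at h1
  have a4 : M1 u ∈ U → P3 u ∈ U := fun h => by
    have h1 := hU _ (dr_M2 1) _ h
    rwa [brk_M2_M1, one_mul] at h1
  have a5 : P3 u ∈ U → M2 u ∈ U := fun h => by
    have h1 := brk_left hU h (dr_P1 1)
    rwa [brk_P3_P1, mul_one] at h1
  have a6 : M2 u ∈ U → P1 u ∈ U := fun h => by
    have h1 := hU _ (dr_M3 1) _ h
    rwa [brk_M3_M2, one_mul] at h1
  have h1 : P1 u ∈ U := by tauto
  exact ⟨h1, a2 (a1 h1), a4 (a3 (a2 (a1 h1))), a3 (a2 (a1 h1)), a5 (a4 (a3 (a2 (a1 h1)))), a1 h1⟩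

theorem has_of_ne {u : Oct a b c} (h : Has U u) (h0 : u ≠ 0) (v : Oct a b c) : Has U v := by
  let I : Submodule F (Oct a b c) :=
    { carrier := {u | Has U u}
      zero_mem' := by
        have h1 := h.lin h 0 0
        rwa [zero_smul, add_zero] at h1
      add_mem' := fun {x y} hx hy => by
        have h1 := Has.lin hx hy 1 1
        rwa [one_smul, one_smul] at h1
      smul_mem' := fun t x hx => by
        have h1 := Has.lin hx hx t 0
        rwa [zero_smul, add_zero] at h1 }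
  refine oct_simple I (fun u hu v => has_of hU ?_) (fun u hu v => has_of hU ?_) h h0 v
  · have h1 := hU _ (dr_P3 v) _ hu.1
    rw [brk_P3_P1] at h1
    tauto
  · have h1 := brk_left hU hu.1 (dr_P2 v)
    rw [brk_P1_P2] at h1
    tauto

/-- The root components of an element of an ideal. -/
theorem comp_mem {Y : Module.End F (Alb a b c)} (hY : Dr Y) (h : Y ∈ U) :
    P3 (Y e2).x3 ∈ U ∧ M3 (star (Y e1).x3) ∈ U ∧ P1 (Y e3).x1 ∈ U ∧ M1 (star (Y e2).x1) ∈ U ∧
      P2 (Y e1).x2 ∈ U ∧ M2 (star (Y e3).x2) ∈ U := by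
  let δ : Module.End F (Alb a b c) →ₗ[F] Module.End F (Alb a b c) :=
    LinearMap.mulLeft F (Hd 2 1 (-3)) - LinearMap.mulRight F (Hd 2 1 (-3))
  have hδ : ∀ X, δ X = Hd 2 1 (-3) * X - X * Hd 2 1 (-3) := fun _ => rfl
  have hw : Function.Injective (![1, -1, 4, -4, -5, 5, 0] : Fin 7 → F) := by
    have h1 : (![1, -1, 4, -4, -5, 5, 0] : Fin 7 → F) =
        fun i => ((![1, -1, 4, -4, -5, 5, 0] : Fin 7 → ℤ) i : F) := by
      funext i
      fin_cases i <;> simp
    rw [h1]
    exact Int.cast_injective.comp (by decide)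
  have h1 := mem_of_eig U δ (fun y hy => hU _ dr_Hd y hy) _ hw Finset.univ
    ![P3 (Y e2).x3, M3 (star (Y e1).x3), P1 (Y e3).x1, M1 (star (Y e2).x1), P2 (Y e1).x2,
      M2 (star (Y e3).x2), Z0 Y] (fun i => by
      rw [hδ]
      fin_cases i
      · exact (Hd_P3 _ _ _ _).trans (by congr 1; norm_num)
      · exact (Hd_M3 _ _ _ _).trans (by congr 1; norm_num)
      · exact (Hd_P1 _ _ _ _).trans (by congr 1; norm_num)
      · exact (Hd_M1 _ _ _ _).trans (by congr 1; norm_num)
      · exact (Hd_P2 _ _ _ _).trans (by congr 1; norm_num)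
      · exact (Hd_M2 _ _ _ _).trans (by congr 1; norm_num)
      · exact (sub_eq_zero.2 (Hd_Z0 _ _ _ hY)).trans (zero_smul _ _).symm) (by
      rw [Fin.sum_univ_seven]
      have h2 : P3 (Y e2).x3 + M3 (star (Y e1).x3) + P1 (Y e3).x1 + M1 (star (Y e2).x1) +
          P2 (Y e1).x2 + M2 (star (Y e3).x2) + Z0 Y = Y := by
        rw [Z0, add_sub_cancel]
      exact h2.symm ▸ h)
  exact ⟨h1 0 (Finset.mem_univ _), h1 1 (Finset.mem_univ _), h1 2 (Finset.mem_univ _),
    h1 3 (Finset.mem_univ _), h1 4 (Finset.mem_univ _), h1 5 (Finset.mem_univ _)⟩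

/-- **Simplicity.** -/
theorem dr_simple (hle : ∀ Y ∈ U, Dr Y) {Y : Module.End F (Alb a b c)} (hY : Y ∈ U) (h0 : Y ≠ 0)
    {X : Module.End F (Alb a b c)} (hX : Dr X) : X ∈ U := by
  by_cases h : ∃ u : Oct a b c, u ≠ 0 ∧ Has U u
  · obtain ⟨u, hu, h⟩ := h
    exact star_main (fun A hA B hB => hU A (hle A hA) B hB) (fun q _ => has_of_ne hU h hu q) hX
  · exfalso
    have h1 : ∀ u : Oct a b c, Has U u → u = 0 := fun u hu => by
      by_contra h2
      exact h ⟨u, h2, hu⟩
    have P0 : ∀ P : Oct a b c → Module.End F (Alb a b c),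
        (∀ (s t : F) u v, P (s • u + t • v) = s • P u + t • P v) → P 0 = 0 := fun P hP => by
      simpa using hP 0 0 0 0
    have h2 : ∀ Y ∈ U, Hd 2 1 (-3) * Y = Y * Hd 2 1 (-3) := by
      intro Y hY
      obtain ⟨c1, c2, c3, c4, c5, c6⟩ := comp_mem hU (hle Y hY) hY
      have h3 : Z0 Y = Y := by
        rw [Z0, h1 _ (has_of hU (u := (Y e2).x3) (by tauto)),
          h1 _ (has_of hU (u := star (Y e1).x3) (by tauto)),
          h1 _ (has_of hU (u := (Y e3).x1) (by tauto)),
          h1 _ (has_of hU (u := star (Y e2).x1) (by tauto)),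
          h1 _ (has_of hU (u := (Y e1).x2) (by tauto)),
          h1 _ (has_of hU (u := star (Y e3).x2) (by tauto)), P0 _ P1_lin, P0 _ P2_lin,
          P0 _ P3_lin, P0 _ M1_lin, P0 _ M2_lin, P0 _ M3_lin]
        simp
      have h4 := Hd_Z0 2 1 (-3) (hle Y hY)
      rwa [h3] at h4
    have h3 : ∀ (A : Module.End F (Alb a b c)) (w : F), Dr A → w ≠ 0 →
        Hd 2 1 (-3) * A - A * Hd 2 1 (-3) = w • A → A ∈ Cm Y := by
      intro A w hA hw h4
      have h5 := h2 _ (hU A hA Y hY)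
      have h6 := h2 Y hY
      have h7 : w • (A * Y - Y * A) = 0 := by
        have h8 : w • (A * Y - Y * A) = (w • A) * Y - Y * (w • A) := by
          rw [smul_sub, smul_mul_assoc, mul_smul_comm]
        rw [h8, ← h4, ← sub_eq_zero.2 h5]
        have h9 : A * Hd 2 1 (-3) * Y = A * Y * Hd 2 1 (-3) := by rw [mul_assoc, h6, mul_assoc]
        have h10 : Y * (Hd 2 1 (-3) * A) = Hd 2 1 (-3) * (Y * A) := by
          rw [← mul_assoc, ← h6, mul_assoc]
        rw [sub_mul, mul_sub, mul_sub, sub_mul, h9, h10, mul_assoc, mul_assoc Y A]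
        abel
      exact sub_eq_zero.1 ((smul_eq_zero.1 h7).resolve_left hw)
    refine h0 (eq_zero_of_comm (hle Y hY) fun A hA => ?_)
    refine star_main (V := Cm Y) (Cm_brk Y) (fun q _ => ⟨?_, ?_, ?_, ?_, ?_, ?_⟩) hA
    · exact h3 _ _ (dr_P1 q) (by norm_num) (Hd_P1 _ _ _ q)
    · exact h3 _ _ (dr_P2 q) (by norm_num) (Hd_P2 _ _ _ q)
    · exact h3 _ _ (dr_P3 q) (by norm_num) (Hd_P3 _ _ _ q)
    · exact h3 _ _ (dr_M1 q) (by norm_num) (Hd_M1 _ _ _ q)
    · exact h3 _ _ (dr_M2 q) (by norm_num) (Hd_M2 _ _ _ q)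
    · exact h3 _ _ (dr_M3 q) (by norm_num) (Hd_M3 _ _ _ q)

end ideal

end Vale.Agent.P011N.E2
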