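import Vale.Agent.P011.E6X.Pt

/-!
Anisotropy: invariants of degree three and six, when the octonions form a division algebra.
-/

set_option linter.unusedSectionVars false

namespace Vale.Agent.P011N.E2

open Vale.Agent.P011.MPQ Vale.Agent.P011.D4 Vale.Agent.P011.D4.Oct Vale.Agent.P011.E6
open Vale.Agent.P011.E6.Alb Vale.Agent.P011.E6O Vale.Agent.P011.E6X.H493

section plane

variable {F : Type} [Field F] [CharZero F] {a b c : Fˣ}

theorem adj_parts {x : Alb a b c} (h : adj x = 0) :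
    norm x.x1 = x.d2 * x.d3 ∧ norm x.x2 = x.d3 * x.d1 ∧ norm x.x3 = x.d1 * x.d2 ∧
      star (x.x2 * x.x3) = x.d1 • x.x1 ∧ star (x.x3 * x.x1) = x.d2 • x.x2 ∧
      star (x.x1 * x.x2) = x.d3 • x.x3 :=
  ⟨(sub_eq_zero.1 (congrArg Alb.d1 h)).symm, (sub_eq_zero.1 (congrArg Alb.d2 h)).symm,
    (sub_eq_zero.1 (congrArg Alb.d3 h)).symm, sub_eq_zero.1 (congrArg Alb.x1 h),
    sub_eq_zero.1 (congrArg Alb.x2 h), sub_eq_zero.1 (congrArg Alb.x3 h)⟩

/-- Two points with vanishing cross product are equal. -/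
theorem prop_of_cross (hd : Division a b c) {m l : Alb a b c} (hm : adj m = 0) (hl : adj l = 0)
    (h : cross m l = 0) (h0 : m.d1 ≠ 0) : m.d1 • l = l.d1 • m := by
  have h1 : adj (m.d1 • l - l.d1 • m) = 0 := by
    rw [sub_eq_add_neg, adj_add, adj_neg, adj_smul, adj_smul, hl, hm, cross_neg_right,
      cross_smul_left, cross_smul_right, cross_comm l m, h]
    simp
  have h2 : cross m (m.d1 • l - l.d1 • m) = 0 := by
    rw [cross_sub_right, cross_smul_right, cross_smul_right, h, Alb.cross_self, hm]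
    simp
  have h3 : (m.d1 • l - l.d1 • m).d1 = 0 := by
    rw [d1_sub, d1_smul, d1_smul]
    ring
  rw [← sub_eq_zero]
  generalize m.d1 • l - l.d1 • m = y at h1 h2 h3
  obtain ⟨n1, n2, n3, -⟩ := adj_parts h1
  have e2 : y.x2 = 0 := hd _ (by rw [n2, h3, mul_zero])
  have e3 : y.x3 = 0 := hd _ (by rw [n3, h3, zero_mul])
  have f3 : y.d3 = 0 := by
    have h4 : m.d3 * y.d1 + y.d3 * m.d1 - bil m.x2 y.x2 = 0 := congrArg Alb.d2 h2
    rw [h3, e2, bil_zero_right, mul_zero, zero_add, sub_zero] at h4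
    exact (mul_eq_zero.1 h4).resolve_right h0
  have f2 : y.d2 = 0 := by
    have h4 : m.d1 * y.d2 + y.d1 * m.d2 - bil m.x3 y.x3 = 0 := congrArg Alb.d3 h2
    rw [h3, e3, bil_zero_right, zero_mul, add_zero, sub_zero] at h4
    exact (mul_eq_zero.1 h4).resolve_left h0
  have e1 : y.x1 = 0 := hd _ (by rw [n1, f3, mul_zero])
  exact Alb.ext h3 f2 f3 e1 e2 e3

/-- A line which is incident with a point. -/
theorem line_eq (hd : Division a b c) {w l : Alb a b c} (hw : adj w = 0) (hl : adj l = 0)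
    (h : tf l w = 0) (h0 : w.d1 ≠ 0) : w.d1 • l = cross w (cross l e1) := by
  obtain ⟨n1, n2, n3, s1, s2, s3⟩ := adj_parts hw
  obtain ⟨m1, m2, m3, t1, t2, t3⟩ := adj_parts hl
  have b1 : bil l.x3 (star (l.x1 * w.x2)) = l.d2 * bil l.x2 w.x2 := by
    rw [tri3', ← tri2, t2, bil_smul_left]
  have b2 : bil w.x3 (star (l.x1 * w.x2)) = w.d1 * bil l.x1 w.x1 := by
    rw [tri3', ← tri1', s1, bil_smul_right]
  have b3 : bil l.x2 (star (w.x3 * l.x1)) = l.d3 * bil l.x3 w.x3 := by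
    rw [tri2', ← tri3, t3, bil_smul_left]
  have b4 : bil w.x2 (star (w.x3 * l.x1)) = w.d1 * bil l.x1 w.x1 := by
    rw [tri2', ← tri1', s1, bil_smul_right]
  rw [tf] at h
  have A3 : w.d1 • l.x3 + l.d2 • w.x3 + star (l.x1 * w.x2) = 0 := by
    apply hd
    rw [norm_add, norm_add, Oct.norm_smul, Oct.norm_smul, Oct.norm_star, Oct.norm_mul,
      bil_add_left, bil_smul_left, bil_smul_left, bil_smul_left, bil_smul_right, b1, b2, m3, n3,
      m1, n2]
    linear_combination (l.d2 * w.d1) * h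
  have A2 : w.d1 • l.x2 + l.d3 • w.x2 + star (w.x3 * l.x1) = 0 := by
    apply hd
    rw [norm_add, norm_add, Oct.norm_smul, Oct.norm_smul, Oct.norm_star, Oct.norm_mul,
      bil_add_left, bil_smul_left, bil_smul_left, bil_smul_left, bil_smul_right, b3, b4, m2, n2,
      m1, n3]
    linear_combination (l.d3 * w.d1) * h
  have B3 := congrArg (bil w.x3) A3
  have B2 := congrArg (bil w.x2) A2
  rw [bil_add_right, bil_add_right, bil_smul_right, bil_smul_right, bil_self, bil_zero_right, b2,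
    n3, bil_comm w.x3] at B3
  rw [bil_add_right, bil_add_right, bil_smul_right, bil_smul_right, bil_self, bil_zero_right, b4,
    n2, bil_comm w.x2] at B2
  have hz : cross l e1 = (⟨0, l.d3, l.d2, -l.x1, 0, 0⟩ : Alb a b c) := by
    apply Alb.ext <;> simp [cross, Alb.e1]
  rw [hz]
  apply Alb.ext
  · change w.d1 * l.d1 = w.d2 * l.d2 + l.d3 * w.d3 - bil w.x1 (-l.x1)
    rw [bil_neg_right, bil_comm w.x1]
    apply mul_left_cancel₀ h0
    linear_combination w.d1 * h - B3 - B2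
  · change w.d1 * l.d2 = w.d3 * 0 + l.d2 * w.d1 - bil w.x2 0
    rw [bil_zero_right]
    ring
  · change w.d1 * l.d3 = w.d1 * l.d3 + 0 * w.d2 - bil w.x3 0
    rw [bil_zero_right]
    ring
  · change w.d1 • l.x1 = star (w.x2 * 0 + 0 * w.x3) - (w.d1 • -l.x1 + (0 : F) • w.x1)
    simp
  · change w.d1 • l.x2 = star (w.x3 * -l.x1 + 0 * w.x1) - (w.d2 • 0 + l.d3 • w.x2)
    rw [zero_mul, add_zero, mul_neg, star_neg, smul_zero, zero_add, ← sub_eq_zero, ← A2]
    abel
  · change w.d1 • l.x3 = star (w.x1 * 0 + -l.x1 * w.x2) - (w.d3 • 0 + l.d2 • w.x3)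
    rw [mul_zero, zero_add, neg_mul, star_neg, smul_zero, zero_add, ← sub_eq_zero, ← A3]
    abel

theorem adj_cross_sing {w : Alb a b c} (hw : adj w = 0) (y : Alb a b c) :
    adj (cross w y) = tf w (adj y) • w := by
  have h := adj_cross w y
  rwa [hw, cross_zero_left, add_zero, tf_zero_left, zero_smul, zero_add] at h

theorem cross_cross_sing {w : Alb a b c} (hw : adj w = 0) (y z : Alb a b c) :
    cross (cross w y) (cross w z) = tf w (cross y z) • w := by
  have h := adj_cross_sing hw (y + z)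
  rw [cross_add_right, adj_add, adj_add, adj_cross_sing hw, adj_cross_sing hw, tf_add_right,
    tf_add_right, add_smul, add_smul, add_left_inj, add_right_inj] at h
  exact h

/-- The trilinear form. -/
def n3 (x y z : Alb a b c) : F := tf (cross x y) z

theorem n3_self (x : Alb a b c) : n3 x x x = 6 * cub x := by
  rw [n3, Alb.cross_self, tf_smul_left, tf_adj_self]
  ring

theorem n3_span {S : Set (Alb a b c)} (h : ∀ x ∈ S, ∀ y ∈ S, ∀ z ∈ S, n3 x y z = 0)
    {x y z : Alb a b c} (hx : x ∈ Submodule.span F S) (hy : y ∈ Submodule.span F S)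
    (hz : z ∈ Submodule.span F S) : n3 x y z = 0 := by
  induction hx using Submodule.span_induction with
  | zero => rw [n3, cross_zero_left, tf_zero_left]
  | add x x' _ _ h1 h2 =>
    rw [n3] at h1 h2
    rw [n3, cross_add_left, tf_add_left, h1, h2, add_zero]
  | smul t x _ h1 =>
    rw [n3] at h1
    rw [n3, cross_smul_left, tf_smul_left, h1, mul_zero]
  | mem x hx =>
    induction hy using Submodule.span_induction with
    | zero => rw [n3, cross_zero_right, tf_zero_left]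
    | add y y' _ _ h1 h2 =>
      rw [n3] at h1 h2
      rw [n3, cross_add_right, tf_add_left, h1, h2, add_zero]
    | smul t y _ h1 =>
      rw [n3] at h1
      rw [n3, cross_smul_right, tf_smul_left, h1, mul_zero]
    | mem y hy =>
      induction hz using Submodule.span_induction with
      | zero => rw [n3, tf_zero_right]
      | add z z' _ _ h1 h2 =>
        rw [n3] at h1 h2
        rw [n3, tf_add_right, h1, h2, add_zero]
      | smul t z _ h1 =>
        rw [n3] at h1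
        rw [n3, tf_smul_right, h1, mul_zero]
      | mem z hz => exact h x hx y hy z hz

theorem cross_span {S : Set (Alb a b c)} {W : Submodule F (Alb a b c)}
    (h : ∀ x ∈ S, ∀ y ∈ S, cross x y ∈ W) {x y : Alb a b c} (hx : x ∈ Submodule.span F S)
    (hy : y ∈ Submodule.span F S) : cross x y ∈ W := by
  induction hx using Submodule.span_induction with
  | zero => rw [cross_zero_left]; exact W.zero_mem
  | add x x' _ _ h1 h2 => rw [cross_add_left]; exact W.add_mem h1 h2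
  | smul t x _ h1 => rw [cross_smul_left]; exact W.smul_mem t h1
  | mem x hx =>
    induction hy using Submodule.span_induction with
    | zero => rw [cross_zero_right]; exact W.zero_mem
    | add y y' _ _ h1 h2 => rw [cross_add_right]; exact W.add_mem h1 h2
    | smul t y _ h1 => rw [cross_smul_right]; exact W.smul_mem t h1
    | mem y hy => exact h x hx y hy

theorem adj_mem {W : Submodule F (Alb a b c)} {x : Alb a b c} (h : cross x x ∈ W) :
    adj x ∈ W := by
  rw [Alb.cross_self] at h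
  exact (W.smul_mem_iff two_ne_zero).1 h

end plane

section cyc

variable {k E : Type} [Field k] [Field E] [CharZero E] [Algebra k E] {ρ : E ≃ₐ[k] E} {lam : Eˣ}
  {a b c : kˣ}

omit [CharZero E] in
theorem adj_ph (x : AlbL E a b c) :
    adj (ph ρ lam x) = (lam : E) • ph ρ lam⁻¹ (adj x) := by
  have h0 := lam.ne_zero
  apply Alb.ext
  · simp only [adj, ph, d1_smul, Oct.norm_smul, norm_om, inv_inv, map_sub, map_mul]
    ring
  · simp only [adj, ph, d2_smul, norm_om, map_sub, map_mul, Units.val_inv_eq_inv_val]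
    field_simp
  · simp only [adj, ph, d3_smul, norm_om, map_sub, map_mul, Units.val_inv_eq_inv_val]
    field_simp
  · simp only [adj, ph, x1_smul, omap_sub, omap_star, omap_mul, omap_smul, smul_smul,
      Units.val_inv_eq_inv_val, mul_inv_cancel₀ h0, one_smul]
    congr 2
    field_simp
  · simp only [adj, ph, x2_smul, omap_sub, omap_star, omap_mul, omap_smul, mul_smul_oct,
      star_smul_oct, smul_sub, smul_smul]
  · simp only [adj, ph, x3_smul, omap_sub, omap_star, omap_mul, omap_smul, smul_mul_oct,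
      star_smul_oct, smul_sub, smul_smul]

omit [CharZero E] in
theorem cross_ph (x y : AlbL E a b c) :
    cross (ph ρ lam x) (ph ρ lam y) = (lam : E) • ph ρ lam⁻¹ (cross x y) := by
  have h := adj_ph (ρ := ρ) (lam := lam) (x + y)
  rw [ph_add, adj_add, adj_add, ph_add, ph_add, smul_add, smul_add, adj_ph, adj_ph, add_left_inj,
    add_right_inj] at h
  exact h

omit [CharZero E] in
theorem ph_zero : ph ρ lam (0 : AlbL E a b c) = 0 := by
  have h := ph_smul (ρ := ρ) (lam := lam) 0 (0 : AlbL E a b c)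
  rwa [zero_smul, map_zero, zero_smul] at h

omit [CharZero E] in
theorem adj_ph_zero {x : AlbL E a b c} (h : adj x = 0) : adj (ph ρ lam x) = 0 := by
  rw [adj_ph, h, ph_zero, smul_zero]

omit [CharZero E] in
theorem cyc_inv (H : Cyc (ρ : E ≃+* E) (lam : E)) : Cyc (ρ : E ≃+* E) ((lam⁻¹ : Eˣ) : E) := by
  refine ⟨H.r3, ?_, Units.ne_zero _, ?_⟩
  · rw [Units.val_inv_eq_inv_val, map_inv₀, H.rl]
  · rw [Units.val_inv_eq_inv_val]
    exact H.nn2

variable (hd : Division (up E a) (up E b) (up E c))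

include hd

omit [CharZero E] in
theorem exists_rot {X : Submodule E (AlbL E a b c)} (hX : ∀ x ∈ X, ph ρ lam x ∈ X)
    {w : AlbL E a b c} (hw : w ∈ X) (h : adj w = 0) (h0 : w ≠ 0) :
    ∃ w' ∈ X, adj w' = 0 ∧ w'.d1 ≠ 0 := by
  by_contra hn
  push Not at hn
  have e1 := hn w hw h
  have e3 := hn _ (hX w hw) (adj_ph_zero h)
  have e2 := hn _ (hX _ (hX w hw)) (adj_ph_zero (adj_ph_zero h))
  have f3 : w.d3 = 0 := by
    have h1 : ((lam⁻¹ : Eˣ) : E) * ρ w.d3 = 0 := e3
    exact (map_eq_zero ρ).1 ((mul_eq_zero.1 h1).resolve_left (Units.ne_zero _))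
  have f2 : w.d2 = 0 := by
    have h1 : ((lam⁻¹ : Eˣ) : E) * ρ ((lam : E) * ρ w.d2) = 0 := e2
    have h2 := (map_eq_zero ρ).1 ((mul_eq_zero.1 h1).resolve_left (Units.ne_zero _))
    exact (map_eq_zero ρ).1 ((mul_eq_zero.1 h2).resolve_left (Units.ne_zero _))
  refine h0 (Alb.ext e1 f2 f3 (hd _ ?_) (hd _ ?_) (hd _ ?_))
  · rw [← sub_eq_zero.1 (congrArg Alb.d1 h : w.d2 * w.d3 - norm w.x1 = 0), f3, mul_zero]
  · rw [← sub_eq_zero.1 (congrArg Alb.d2 h : w.d3 * w.d1 - norm w.x2 = 0), e1, mul_zero]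
  · rw [← sub_eq_zero.1 (congrArg Alb.d3 h : w.d1 * w.d2 - norm w.x3 = 0), f2, mul_zero]

theorem cross_ph_ne (H : Cyc (ρ : E ≃+* E) (lam : E)) {w : AlbL E a b c} (h : adj w = 0)
    (h0 : w.d1 ≠ 0) : cross w (ph ρ lam w) ≠ 0 := by
  intro h1
  have h2 := prop_of_cross hd h (adj_ph_zero h) h1 h0
  obtain ⟨t, ht⟩ : ∃ t : E, ph ρ lam w = t • w :=
    ⟨(w.d1)⁻¹ * (ph ρ lam w).d1, by rw [mul_smul, ← h2, smul_smul, inv_mul_cancel₀ h0, one_smul]⟩
  have h3 := ph3 (ρ := ρ) (lam := lam) H.r3 H.rl w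
  rw [ht, ph_smul, ht, ph_smul, ph_smul, ht, smul_smul, smul_smul] at h3
  have h4 : ρ (ρ t) * ρ t * t * w.d1 = lam * w.d1 := congrArg Alb.d1 h3
  apply H.nn t
  rw [← mul_right_cancel₀ h0 h4]
  change t * ρ t * ρ (ρ t) = _
  ring

theorem eq_zero_of_sing (H : Cyc (ρ : E ≃+* E) (lam : E)) {X : Submodule E (AlbL E a b c)}
    (hX : ∀ x ∈ X, ph ρ lam x ∈ X) (h : ∀ x ∈ X, adj x = 0) {x : AlbL E a b c} (hx : x ∈ X) :
    x = 0 := by
  by_contra h0
  obtain ⟨w, hw, h1, h2⟩ := exists_rot hd hX hx (h x hx) h0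
  apply cross_ph_ne hd H h1 h2
  have h3 := h _ (X.add_mem hw (hX w hw))
  rwa [adj_add, h1, adj_ph_zero h1, zero_add, add_zero] at h3

theorem not_incident (H : Cyc (ρ : E ≃+* E) (lam : E)) {X Y : Submodule E (AlbL E a b c)}
    (hX : ∀ x ∈ X, ph ρ lam x ∈ X) (hY : ∀ y ∈ Y, ph ρ lam⁻¹ y ∈ Y)
    (h : ∀ y ∈ Y, ∀ x ∈ X, tf y x = 0) {w l : AlbL E a b c} (hw : w ∈ X) (hw1 : adj w = 0)
    (hw0 : w ≠ 0) (hl : l ∈ Y) (hl1 : adj l = 0) (hl0 : l ≠ 0) : False := by
  obtain ⟨w, hw, hw1, hw0⟩ := exists_rot hd hX hw hw1 hw0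
  obtain ⟨l, hl, hl1, hl0⟩ := exists_rot hd hY hl hl1 hl0
  have hm0 := cross_ph_ne hd H hw1 hw0
  have hm1 : adj (cross w (ph ρ lam w)) = 0 := by
    rw [adj_cross_sing hw1, adj_ph_zero hw1, tf_zero_right, zero_smul]
  have key : ∀ y ∈ Y, adj y = 0 → cross y (cross w (ph ρ lam w)) = 0 := by
    intro y hy hy1
    have h1 := line_eq hd hw1 hy1 (h y hy w hw) hw0
    have h2 : w.d1 • cross y (cross w (ph ρ lam w)) = 0 := by
      rw [← cross_smul_left, h1, cross_cross_sing hw1, ← tf_cross, ← h1, tf_smul_left,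
        h y hy _ (hX w hw), mul_zero, zero_smul]
    exact (smul_eq_zero.1 h2).resolve_left hw0
  have h1 := prop_of_cross hd hl1 hm1 (key l hl hl1) hl0
  have h2 := key _ (hY l hl) (adj_ph_zero hl1)
  generalize cross w (ph ρ lam w) = m at hm0 h1 h2
  have h3 : m.d1 ≠ 0 := by
    intro h4
    rw [h4, zero_smul] at h1
    exact hm0 ((smul_eq_zero.1 h1).resolve_left hl0)
  apply cross_ph_ne hd (cyc_inv H) hl1 hl0
  have h5 : m.d1 • cross l (ph ρ lam⁻¹ l) = 0 := by
    rw [← cross_smul_left, ← h1, cross_smul_left, cross_comm m, h2, smul_zero]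
  exact (smul_eq_zero.1 h5).resolve_left h3

/-- **Anisotropy.** -/
theorem eq_zero_of_inv (H : Cyc (ρ : E ≃+* E) (lam : E)) {x : AlbL E a b c}
    (h3 : ∀ i j l : Fin 3, n3 ((ph ρ lam)^[i] x) ((ph ρ lam)^[j] x) ((ph ρ lam)^[l] x) = 0)
    (h6 : ∀ i j i' j' i'' j'' : Fin 3, n3 (cross ((ph ρ lam)^[i] x) ((ph ρ lam)^[j] x))
      (cross ((ph ρ lam)^[i'] x) ((ph ρ lam)^[j'] x))
      (cross ((ph ρ lam)^[i''] x) ((ph ρ lam)^[j''] x)) = 0) : x = 0 := by
  set S1 : Set (AlbL E a b c) := {y | ∃ i : Fin 3, y = (ph ρ lam)^[i] x} with hS1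
  set S2 : Set (AlbL E a b c) := {z | ∃ y ∈ S1, ∃ y' ∈ S1, z = cross y y'} with hS2
  set X1 := Submodule.span E S1 with hX1
  set X2 := Submodule.span E S2 with hX2
  set X3 := Submodule.span E {w | ∃ z ∈ X2, ∃ z' ∈ X2, w = cross z z'} with hX3
  have st : ∀ (mu : Eˣ) (S : Set (AlbL E a b c)), (∀ y ∈ S, ph ρ mu y ∈ Submodule.span E S) →
      ∀ y ∈ Submodule.span E S, ph ρ mu y ∈ Submodule.span E S := by
    intro mu S hS y hy
    induction hy using Submodule.span_induction with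
    | mem y hy => exact hS y hy
    | zero => rw [ph_zero]; exact Submodule.zero_mem _
    | add y z _ _ h1 h2 => rw [ph_add]; exact Submodule.add_mem _ h1 h2
    | smul t y _ h1 => rw [ph_smul]; exact Submodule.smul_mem _ _ h1
  have hx : x ∈ X1 := Submodule.subset_span ⟨0, rfl⟩
  have p1 : ∀ y ∈ X1, ph ρ lam y ∈ X1 := by
    refine st lam S1 ?_
    rintro y ⟨i, rfl⟩
    fin_cases i
    · exact Submodule.subset_span ⟨1, rfl⟩
    · exact Submodule.subset_span ⟨2, rfl⟩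
    · have h1 := ph3 (ρ := ρ) (lam := lam) H.r3 H.rl x
      exact h1.symm ▸ X1.smul_mem _ hx
  have c12 : ∀ y ∈ X1, ∀ y' ∈ X1, cross y y' ∈ X2 := fun y hy y' hy' =>
    cross_span (S := S1) (W := X2)
      (fun y hy y' hy' => Submodule.subset_span (s := S2) ⟨y, hy, y', hy', rfl⟩) hy hy'
  have p2 : ∀ z ∈ X2, ph ρ lam⁻¹ z ∈ X2 := by
    refine st lam⁻¹ S2 ?_
    rintro z ⟨y, hy, y', hy', rfl⟩
    have h1 := c12 _ (p1 y (Submodule.subset_span hy)) _ (p1 y' (Submodule.subset_span hy'))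
    rw [cross_ph] at h1
    exact (X2.smul_mem_iff lam.ne_zero).1 h1
  have c23 : ∀ z ∈ X2, ∀ z' ∈ X2, cross z z' ∈ X3 := fun z hz z' hz' =>
    Submodule.subset_span ⟨z, hz, z', hz', rfl⟩
  have p3 : ∀ w ∈ X3, ph ρ lam w ∈ X3 := by
    refine st lam _ ?_
    rintro w ⟨z, hz, z', hz', rfl⟩
    have h1 := c23 _ (p2 z hz) _ (p2 z' hz')
    rw [cross_ph, inv_inv] at h1
    exact (X3.smul_mem_iff (lam⁻¹).ne_zero).1 h1
  have v1 : ∀ y ∈ X1, cub y = 0 := by
    intro y hy
    have h1 : n3 y y y = 0 := n3_span (by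
      rintro _ ⟨i, rfl⟩ _ ⟨j, rfl⟩ _ ⟨l, rfl⟩
      exact h3 i j l) hy hy hy
    rw [n3_self] at h1
    exact (mul_eq_zero.1 h1).resolve_left (by norm_num)
  have v2 : ∀ z ∈ X2, ∀ z' ∈ X2, ∀ z'' ∈ X2, n3 z z' z'' = 0 := fun z hz z' hz' z'' hz'' =>
    n3_span (by
      rintro _ ⟨_, ⟨i, rfl⟩, _, ⟨j, rfl⟩, rfl⟩ _ ⟨_, ⟨i', rfl⟩, _, ⟨j', rfl⟩, rfl⟩ _
        ⟨_, ⟨i'', rfl⟩, _, ⟨j'', rfl⟩, rfl⟩
      exact h6 i j i' j' i'' j'') hz hz' hz''
  have v3 : ∀ z ∈ X2, ∀ w ∈ X3, tf z w = 0 := by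
    intro z hz w hw
    induction hw using Submodule.span_induction with
    | mem w hw =>
      obtain ⟨z', hz', z'', hz'', rfl⟩ := hw
      rw [tf_comm]
      exact v2 _ hz' _ hz'' _ hz
    | zero => exact tf_zero_right _
    | add y z _ _ h1 h2 => rw [tf_add_right, h1, h2, add_zero]
    | smul t y _ h1 => rw [tf_smul_right, h1, mul_zero]
  refine eq_zero_of_sing hd H p1 (fun y hy => ?_) hx
  by_contra hy0
  have hy2 : adj y ∈ X2 := adj_mem (c12 y hy y hy)
  refine hy0 (eq_zero_of_sing hd (cyc_inv H) p2 (fun z hz => ?_) hy2)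
  by_contra hz0
  refine not_incident hd H p3 p2 v3 (adj_mem (c23 z hz z hz)) ?_ hz0 hy2 ?_ hy0
  · have h1 := v2 z hz z hz z hz
    rw [n3_self] at h1
    rw [adj_adj, (mul_eq_zero.1 h1).resolve_left (by norm_num), zero_smul]
  · rw [adj_adj, v1 y hy, zero_smul]

end cyc

end Vale.Agent.P011N.E2
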