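import Vale.Agent.P011N.E2.Jet
import Vale.Agent.P011.H500.Rl.EvX
import Vale.Agent.P011.H974.Rl.Span0
import Vale.Agent.P011.H327.Star.Fin
import Vale.Agent.P011.E6X.Pt

/-!
Rational curves in the group, and the Lie algebra generated by their tangent vectors.
-/

open Matrix Polynomial

set_option linter.unusedSectionVars false

namespace Vale.Agent.P011N.E2

open Vale.Agent.P011N
open Vale.Agent.P011 Vale.Agent.P011.MPQ Vale.Agent.P011.D4 Vale.Agent.P011.D4.Oct
open Vale.Agent.P011.E6 Vale.Agent.P011.H500.Rl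
open Vale.Agent.P011.E6W.H964 (Xm XU Sy)
open Vale.Agent.P011.E6O (InD0 GO)
open Vale.Agent.P011.D4.H24 (ob oup_ob)

/-- The space as a vector space over the rational numbers. -/
instance albQ {F : Type} [Field F] [CharZero F] {a b c : Fˣ} : Module ℚ (Alb a b c) :=
  Module.compHom _ (algebraMap ℚ F)

instance albQT {F : Type} [Field F] [CharZero F] {a b c : Fˣ} : IsScalarTower ℚ F (Alb a b c) :=
  ⟨fun q t x => by
    change (q • t) • x = algebraMap ℚ F q • (t • x)
    rw [Algebra.smul_def, mul_smul]⟩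

variable {k E : Type} [Field k] [Field E] [NumberField E] [Algebra k E]
  {ρ σ : E ≃ₐ[k] E} {lam : Eˣ} {g : Fin 3 → Eˣ} {kap a b c a' b' c' : kˣ} {i j l : Oct a b c}

/-- Transport of the elements of the group. -/
theorem conj_trip (ht : Trip a' b' c' i j l)
    {φ : AlbL E a' b' c' ≃ₗ[E] AlbL E a' b' c'} (hφ : φ ∈ GO ρ σ lam g a' b' c') :
    ((tripA E ht).symm.trans φ).trans (tripA E ht) ∈ GO ρ σ lam g a b c := by
  refine ⟨fun x => ?_, fun x => ?_, fun x y => ?_⟩
  · change Alb.cub (tripA E ht (φ ((tripA E ht).symm x))) = _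
    rw [E6X.H493.tripA_cub, hφ.1, ← E6X.H493.tripA_cub ht, LinearEquiv.apply_symm_apply]
  · change tripA E ht (φ ((tripA E ht).symm (E6O.ph ρ lam x))) =
      E6O.ph ρ lam (tripA E ht (φ ((tripA E ht).symm x)))
    rw [← E6X.H493.tripA_ph, ← hφ.2.1]
    congr 2
    apply (tripA E ht).injective
    rw [E6X.H493.tripA_ph, LinearEquiv.apply_symm_apply, LinearEquiv.apply_symm_apply]
  · change E6O.her σ g (tripA E ht (φ ((tripA E ht).symm x)))
      (tripA E ht (φ ((tripA E ht).symm y))) = _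
    rw [E6X.H493.tripA_her, hφ.2.2, ← E6X.H493.tripA_her ht, LinearEquiv.apply_symm_apply,
      LinearEquiv.apply_symm_apply]

/-- The Cayley transforms form a rational curve. -/
theorem curve0 {x : Matrix (Fin 3) (Fin 3) E} (hx : InD0 ρ lam x) (hs : Sy σ g x) :
    ∃ (G : ℚ → AlbL E a b c → AlbL E a b c) (q : ℚ[X]), (∀ v, IsRat fun t => G t v) ∧
      q.eval 0 ≠ 0 ∧ ∀ t : ℚ, q.eval t ≠ 0 → ∃ u ∈ GO ρ σ lam g a b c,
        ∀ v, u v = v + t • DD ((2 : E) • x) v + t ^ 2 • G t v := by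
  set β : E := ((up E b : Eˣ) : E) with hβ
  set Y : Matrix (Fin 3) (Fin 3) E := β • (x * x) with hY
  have hA : IsRat fun t : ℚ => 1 + t • t • (-Y) :=
    rat_add (rat_const _) (rat_tsmul (rat_tsmul (rat_const _)))
  obtain ⟨B, q, hB, hq, h1⟩ := rat_ringInv hA (by rw [zero_smul, add_zero])
  have hr : IsRat fun t : ℚ => ((((2 : E) • Y) * B t, t • ((((2 : E) • x) * Y) * B t)) : WW E) :=
    rat_pair (rat_mul (rat_const _) hB) (rat_tsmul (rat_mul (rat_const _) hB))
  generalize hrd : (fun t : ℚ =>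
    ((((2 : E) • Y) * B t, t • ((((2 : E) • x) * Y) * B t)) : WW E)) = r at hr
  have hs' : IsRat fun t : ℚ => ((0, (2 : E) • x) : WW E) + t • r t :=
    rat_add (rat_const _) (rat_tsmul hr)
  refine ⟨fun t v => F1 v (r t) + F2 v (((0, (2 : E) • x) : WW E) + t • r t)
    (((0, (2 : E) • x) : WW E) + t • r t), q, fun v => rat_add
      (rat_lin ((F1 v).restrictScalars ℚ) hr)
      (rat_bil ((F2 v).restrictScalars₁₂ ℚ ℚ) hs' hs'), hq, fun t ht => ?_⟩
  have hD : Dl ((t : E) • x) β = 1 + t • t • (-Y) := by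
    rw [Dl, hY, ← Rat.cast_smul_eq_qsmul E, ← Rat.cast_smul_eq_qsmul E, Matrix.smul_mul,
      Matrix.mul_smul]
    module
  have h2 : Dl ((t : E) • x) β * B t = 1 := by rw [hD]; exact h1 t ht
  have hd : (Dl ((t : E) • x) β).det ≠ 0 := Matrix.det_ne_zero_of_right_inverse h2
  have hi : (Dl ((t : E) • x) β)⁻¹ = B t := Matrix.inv_eq_right_inv h2
  have h3 : B t = 1 + (t : E) • (t : E) • (Y * B t) := by
    have h4 := h1 t ht
    rw [← Rat.cast_smul_eq_qsmul E, ← Rat.cast_smul_eq_qsmul E, Matrix.add_mul, Matrix.one_mul,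
      Matrix.smul_mul, Matrix.smul_mul, Matrix.neg_mul, smul_neg, smul_neg,
      ← sub_eq_add_neg] at h4
    exact sub_eq_iff_eq_add.1 h4
  obtain ⟨φ, hφ, h4⟩ := exists_cay (a := a) (c := c) (inD0_smul (map_ratCast ρ t) hx)
    (Sy_smul (map_ratCast σ t) hs) hd
  refine ⟨φ, hφ, fun v => ?_⟩
  have h5 : ((xc ((t : E) • x) β, yc ((t : E) • x) β) : WW E) =
      (1, 0) + (t : E) • (((0, (2 : E) • x) : WW E) + t • r t) := by
    rw [← hrd, ← Rat.cast_smul_eq_qsmul E]
    refine Prod.ext ?_ ?_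
    · change xc ((t : E) • x) β = 1 + (t : E) • (0 + (t : E) • (((2 : E) • Y) * B t))
      rw [xc, hi, Matrix.smul_mul]
      conv_lhs => rw [h3]
      module
    · change yc ((t : E) • x) β =
        0 + (t : E) • ((2 : E) • x + (t : E) • t • ((((2 : E) • x) * Y) * B t))
      rw [yc, hi, ← Rat.cast_smul_eq_qsmul E, Matrix.smul_mul, Matrix.smul_mul, Matrix.smul_mul,
        Matrix.mul_assoc]
      conv_lhs => rw [h3]
      rw [Matrix.mul_add, Matrix.mul_one, Matrix.mul_smul, Matrix.mul_smul]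
      module
  have h6 : φ v = actM (xm (up E a) (up E b) (xc ((t : E) • x) β, yc ((t : E) • x) β))
      (xm (up E a) (up E b) (ng (xc ((t : E) • x) β, yc ((t : E) • x) β))) v := by
    rw [h4, act_eq]
    rfl
  change _ = v + t • DD ((2 : E) • x) v + t ^ 2 • (F1 v (r t) +
    F2 v (((0, (2 : E) • x) : WW E) + t • r t) (((0, (2 : E) • x) : WW E) + t • r t))
  rw [h6, h5, act_expand, map_smul, map_smul, map_smul, LinearMap.smul_apply]
  generalize F2 v (((0, (2 : E) • x) : WW E) + t • r t) (((0, (2 : E) • x) : WW E) + t • r t) = z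
  rw [map_add (F1 v), ← DD_apply, ← Rat.cast_smul_eq_qsmul E t (r t), map_smul (F1 v),
    ← Rat.cast_smul_eq_qsmul E t, ← Rat.cast_smul_eq_qsmul E (t ^ 2), Rat.cast_pow]
  module

/-- The derivation attached to a matrix and to a basic triple. -/
noncomputable def DT (ht : Trip a' b' c' i j l) (M : Matrix (Fin 3) (Fin 3) E) :
    Module.End E (AlbL E a b c) :=
  (tripA E ht).toLinearMap ∘ₗ DD M ∘ₗ (tripA E ht).symm.toLinearMap

theorem DT_apply (ht : Trip a' b' c' i j l) (M : Matrix (Fin 3) (Fin 3) E) (v : AlbL E a b c) :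
    DT ht M v = tripA E ht (DD M ((tripA E ht).symm v)) := rfl

theorem DT_add (ht : Trip a' b' c' i j l) (M M' : Matrix (Fin 3) (Fin 3) E) :
    DT ht (M + M') = DT ht M + DT ht M' := by
  refine LinearMap.ext fun v => ?_
  rw [LinearMap.add_apply, DT_apply, DT_apply, DT_apply, DD_add, LinearMap.add_apply, map_add]

theorem DT_smul (ht : Trip a' b' c' i j l) (t : E) (M : Matrix (Fin 3) (Fin 3) E) :
    DT ht (t • M) = t • DT ht M := by
  refine LinearMap.ext fun v => ?_
  rw [LinearMap.smul_apply, DT_apply, DT_apply, DD_smul, LinearMap.smul_apply, map_smul]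

/-- The rational curve with the tangent vector `DT ht x`. -/
theorem curve (ht : Trip a' b' c' i j l) {x : Matrix (Fin 3) (Fin 3) E} (hx : InD0 ρ lam x)
    (hs : Sy σ g x) :
    ∃ (G : ℚ → AlbL E a b c → AlbL E a b c) (q : ℚ[X]), (∀ v, IsRat fun t => G t v) ∧
      q.eval 0 ≠ 0 ∧ ∀ t : ℚ, q.eval t ≠ 0 → ∃ u ∈ GO ρ σ lam g a b c,
        ∀ v, u v = v + t • DT ht x v + t ^ 2 • G t v := by
  obtain ⟨G, q, h1, h2, h3⟩ := curve0 (a := a') (b := b') (c := c')
    (inD0_smul (t := (2 : E)⁻¹) (by rw [map_inv₀, map_ofNat]) hx)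
    (Sy_smul (t := (2 : E)⁻¹) (by rw [map_inv₀, map_ofNat]) hs)
  rw [smul_smul, mul_inv_cancel₀ two_ne_zero, one_smul] at h3
  refine ⟨fun t v => tripA E ht (G t ((tripA E ht).symm v)), q, fun v =>
    rat_lin ((tripA E ht).toLinearMap.restrictScalars ℚ) (h1 _), h2, fun t hq => ?_⟩
  obtain ⟨u, hu, h4⟩ := h3 t hq
  refine ⟨_, conj_trip ht hu, fun v => ?_⟩
  change tripA E ht (u ((tripA E ht).symm v)) = _
  rw [h4, map_add, map_add, LinearEquiv.apply_symm_apply, DT_apply,
    ← Rat.cast_smul_eq_qsmul E t, ← Rat.cast_smul_eq_qsmul E (t ^ 2), map_smul, map_smul,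
    Rat.cast_smul_eq_qsmul, Rat.cast_smul_eq_qsmul]

/-- The symmetric elements of the cyclic algebra span the matrices. -/
theorem span_sy (hS : E6H.IsSextic ρ σ kap) (hg : E6H.IsForm ρ σ lam g)
    (M : Matrix (Fin 3) (Fin 3) E) :
    M ∈ Submodule.span E {x : Matrix (Fin 3) (Fin 3) E | InD0 ρ lam x ∧ Sy σ g x} := by
  by_contra h
  obtain ⟨f, hf, h1⟩ := Submodule.exists_le_ker_of_notMem h
  let φ : E →+* ℂ := (IsAlgClosed.lift : E →ₐ[ℚ] ℂ)
  have h2 : ∀ z : Matrix (Fin 3) (Fin 3) E,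
      φ (f z) = ∑ p, ∑ q, z.map φ p q * φ (f (Matrix.single p q 1)) := by
    intro z
    conv_lhs => rw [Matrix.matrix_eq_sum_single z]
    rw [map_sum, map_sum]
    refine Finset.sum_congr rfl fun p _ => ?_
    rw [map_sum, map_sum]
    refine Finset.sum_congr rfl fun q _ => ?_
    have h3 : Matrix.single p q (z p q) = z p q • Matrix.single p q (1 : E) := by
      rw [Matrix.smul_single, smul_eq_mul, mul_one]
    rw [h3, map_smul, smul_eq_mul, map_mul, Matrix.map_apply]
  have h3 : ∀ z ∈ Submodule.span ℂ {z | ∃ x : Matrix (Fin 3) (Fin 3) E, InD0 ρ lam x ∧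
      H974.Rl.SyG σ g x ∧ z = x.map φ},
      ∑ p, ∑ q, z p q * φ (f (Matrix.single p q 1)) = 0 := by
    intro z hz
    induction hz using Submodule.span_induction with
    | mem z hz =>
      obtain ⟨x, hx, hs, rfl⟩ := hz
      have h4 : f x = 0 := h1 (Submodule.subset_span ⟨hx, hs⟩)
      rw [← h2, h4, map_zero]
    | zero => simp
    | add y z _ _ hy hz =>
      simp only [Matrix.add_apply, add_mul, Finset.sum_add_distrib]
      rw [hy, hz, add_zero]
    | smul t y _ hy =>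
      simp only [Matrix.smul_apply, smul_eq_mul, mul_assoc, ← Finset.mul_sum]
      rw [hy, mul_zero]
  have h4 := h3 _ (H974.Rl.span_syG hS hg φ (M.map φ))
  rw [← h2] at h4
  exact hf ((map_eq_zero φ).1 h4)

theorem tripO_gj (ht : Trip a' b' c' i j l) : tripO E ht gj = oup E j := by
  rw [tripO_apply]
  simp [Oct.emb, Oct.qemb, gj]

open Vale.Agent.P011.H327.Star in
theorem has_trip {V : Submodule E (Module.End E (AlbL E a b c))} (ht : Trip a' b' c' i j l)
    (h : ∀ M, DT ht M ∈ V) : Has V (oup E j) := by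
  have hf := tripO_mul (K := E) ht
  have hgj := tripO_gj (E := E) ht
  have key : ∀ (M : Matrix (Fin 3) (Fin 3) E) (P : Module.End E (AlbL E a b c)),
      (∀ u, tripA E ht (DD M u) = P (tripA E ht u)) → P ∈ V := by
    intro M P hP
    have h1 : DT ht M = P := LinearMap.ext fun v => by
      rw [DT_apply, hP, LinearEquiv.apply_symm_apply]
    exact h1 ▸ h M
  refine ⟨key (Matrix.single 1 2 1) _ fun u => ?_, key (Matrix.single 2 0 1) _ fun u => ?_,
    key (Matrix.single 0 1 1) _ fun u => ?_, key (Matrix.single 2 1 1) _ fun u => ?_,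
    key (Matrix.single 0 2 1) _ fun u => ?_, key (Matrix.single 1 0 1) _ fun u => ?_⟩
  · rw [DD_P1, ← hgj, ← P1_eq, tripA, mapE_P1 hf]
  · rw [DD_P2, ← hgj, ← P2_eq, tripA, mapE_P2 hf]
  · rw [DD_P3, ← hgj, ← P3_eq, tripA, mapE_P3 hf]
  · rw [DD_M1, ← hgj, ← M1_eq, tripA, mapE_M1 hf]
  · rw [DD_M2, ← hgj, ← M2_eq, tripA, mapE_M2 hf]
  · rw [DD_M3, ← hgj, ← M3_eq, tripA, mapE_M3 hf]

/-- The generating tangent vectors. -/
def Gn (ρ σ : E ≃ₐ[k] E) (lam : Eˣ) (g : Fin 3 → Eˣ) (a b c : kˣ) :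
    Set (Module.End E (AlbL E a b c)) :=
  {X | ∃ (a' b' c' : kˣ) (i j l : Oct a b c) (ht : Trip a' b' c' i j l)
    (x : Matrix (Fin 3) (Fin 3) E), InD0 ρ lam x ∧ Sy σ g x ∧ X = DT ht x}

theorem Gn_smul {X : Module.End E (AlbL E a b c)} (hX : X ∈ Gn ρ σ lam g a b c) {t : E}
    (h1 : ρ t = t) (h2 : σ t = t) : t • X ∈ Gn ρ σ lam g a b c := by
  obtain ⟨a', b', c', i, j, l, ht, x, hx, hs, rfl⟩ := hX
  exact ⟨a', b', c', i, j, l, ht, t • x, inD0_smul h1 hx, Sy_smul h2 hs, (DT_smul ht t x).symm⟩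

open Vale.Agent.P011.H327.Star in
/-- The tangent vectors generate the Lie algebra of the cubic norm. -/
theorem gen_dr [CharZero k] (hS : E6H.IsSextic ρ σ kap) (hg : E6H.IsForm ρ σ lam g)
    {V : Submodule E (Module.End E (AlbL E a b c))}
    (hV : ∀ X ∈ V, ∀ Y ∈ V, X * Y - Y * X ∈ V) (h : ∀ X ∈ Gn ρ σ lam g a b c, X ∈ V)
    {X : Module.End E (AlbL E a b c)} (hX : Dr X) : X ∈ V := by
  have h1 : ∀ m : Fin 8, m ≠ 0 → Has V (ob m) := by
    intro m hm
    obtain ⟨a', b', c', i, j, l, ht, rfl⟩ :=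
      exists_trip_ob (F := k) (a := a) (b := b) (c := c) m hm
    rw [← oup_ob]
    refine has_trip ht fun M => ?_
    have h2 := span_sy hS hg M
    induction h2 using Submodule.span_induction with
    | mem x hx => exact h _ ⟨a', b', c', i, _, l, ht, x, hx.1, hx.2, rfl⟩
    | zero =>
      have h3 := DT_smul ht (0 : E) 0
      rw [zero_smul, zero_smul] at h3
      rw [h3]
      exact V.zero_mem
    | add y z _ _ hy hz => rw [DT_add]; exact V.add_mem hy hz
    | smul t y _ hy => rw [DT_smul]; exact V.smul_mem t hy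
  refine star_main hV (fun q hq => ?_) hX
  have h0 : D4.H24.oc q 0 = 0 := by
    rw [bil_eq] at hq
    have h2 : 2 * q.fst.re = 0 := by simpa using hq
    exact (mul_eq_zero.1 h2).resolve_left two_ne_zero
  have hz : Has V 0 := by
    have h2 := (h1 1 (by decide)).lin (h1 1 (by decide)) 0 0
    rwa [zero_smul, add_zero] at h2
  rw [← D4.H24.sum_oc q]
  refine Finset.sum_induction _ (Has V) (fun u v hu hv => ?_) hz fun m _ => ?_
  · have h2 := hu.lin hv 1 1
    rwa [one_smul, one_smul] at h2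
  · by_cases hm : m = 0
    · rw [hm, h0, zero_smul]
      exact hz
    · have h2 := (h1 m hm).lin hz (D4.H24.oc q m) 0
      rwa [smul_zero, add_zero] at h2

end Vale.Agent.P011N.E2
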