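import Vale.Agent.P011N.E2.Curve
import Vale.Agent.P011N.E2.Aniso

/-!
The invariant forms.
-/

open Module

set_option linter.unusedSectionVars false

namespace Vale.Agent.P011N.E2

open Vale.Agent.P011N
open Vale.Agent.P011 Vale.Agent.P011.MPQ Vale.Agent.P011.D4 Vale.Agent.P011.D4.Oct
open Vale.Agent.P011.E6 Vale.Agent.P011.E6.Alb
open Vale.Agent.P011.E6O (GO ph her)
open Vale.Agent.P011.E6X.H493 (ph_add ph_smul ph3)
open Vale.Agent.P011.H327.Star (Dr)

section gen

variable {E V : Type} [Field E] [NumberField E] [AddCommGroup V] [Module ℚ V]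

/-- A finite family of multilinear maps with values in a number field. -/
structure EF (E V : Type) [Field E] [NumberField E] [AddCommGroup V] [Module ℚ V] where
  /-- the indices -/
  I : Type
  /-- finiteness -/
  fin : Finite I
  /-- the degrees -/
  deg : I → ℕ
  /-- the maps -/
  m : ∀ i, MultilinearMap ℚ (fun _ : Fin (deg i) => V) E

/-- The coordinates of the maps. -/
noncomputable def EF.toForms (S : EF E V) : Forms V where
  I := S.I × Fin (finrank ℚ E)
  fin := haveI := S.fin; inferInstance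
  deg p := S.deg p.1
  τ p := ((Module.finBasis ℚ E).coord p.2).compMultilinearMap (S.m p.1)

theorem eq_of_coord {x y : E}
    (h : ∀ j, (Module.finBasis ℚ E).coord j x = (Module.finBasis ℚ E).coord j y) : x = y :=
  (Module.finBasis ℚ E).ext_elem h

theorem EF.mem_grp (S : EF E V) {u : V ≃ₗ[ℚ] V} :
    u ∈ S.toForms.grp ↔ ∀ i x, S.m i (fun j => u (x j)) = S.m i x :=
  ⟨fun h i x => eq_of_coord fun j => h (i, j) x,
    fun h p x => congrArg ((Module.finBasis ℚ E).coord p.2) (h p.1 x)⟩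

theorem EF.of_mem_lie (S : EF E V) {X : Module.End ℚ V} (h : X ∈ S.toForms.lie) (i : S.I)
    (x : Fin (S.deg i) → V) : ∑ j, S.m i (Function.update x j (X (x j))) = 0 := by
  refine eq_of_coord fun j => ?_
  rw [map_sum, map_zero]
  exact h (i, j) x

theorem EF.aniso (S : EF E V) {x : V} {i : S.I} (h0 : S.deg i ≠ 0) (h : S.m i (fun _ => x) ≠ 0) :
    ∃ p, S.toForms.deg p ≠ 0 ∧ S.toForms.τ p (fun _ => x) ≠ 0 := by
  by_contra hn
  push Not at hn
  refine h (eq_of_coord fun j => ?_)
  rw [map_zero]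
  exact hn (i, j) h0

/-- A multilinear map from a map which is additive in each variable. -/
def mkQ {n : ℕ} (f : (Fin n → V) → E) (h : ∀ (m : Fin n → V) (i : Fin n) (x y : V),
    f (Function.update m i (x + y)) = f (Function.update m i x) + f (Function.update m i y)) :
    MultilinearMap ℚ (fun _ : Fin n => V) E where
  toFun := f
  map_update_add' := fun {inst} m i x y => by
    obtain rfl : inst = instDecidableEqFin n := Subsingleton.elim _ _
    exact h m i x y
  map_update_smul' := fun {inst} m i t x => by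
    obtain rfl : inst = instDecidableEqFin n := Subsingleton.elim _ _
    exact map_rat_smul (AddMonoidHom.mk' (fun x => f (Function.update m i x)) (h m i)) t x

end gen

variable {k E : Type} [Field k] [Field E] [NumberField E] [Algebra k E]
  {ρ σ : E ≃ₐ[k] E} {lam : Eˣ} {g : Fin 3 → Eˣ} {kap a b c : kˣ}

theorem her_add_left (x y z : AlbL E a b c) : her σ g (x + y) z = her σ g x z + her σ g y z := by
  rw [her, her, her, wt_add, tf_add_left]

theorem her_add_right (x y z : AlbL E a b c) : her σ g x (y + z) = her σ g x y + her σ g x z := by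
  rw [her, her, her, amap_add, tf_add_right]

theorem her_smul_left (t : E) (x y : AlbL E a b c) : her σ g (t • x) y = t * her σ g x y := by
  rw [her, her, wt_smul, tf_smul_left]

theorem her_smul_right (t : E) (x y : AlbL E a b c) : her σ g x (t • y) = σ t * her σ g x y := by
  rw [her, her, amap_smul, tf_smul_right]

theorem eq_of_her (hσ : ∀ t, σ (σ t) = t) {x x' : AlbL E a b c}
    (h : ∀ y, her σ g x y = her σ g x' y) : x = x' := by
  refine wt_injective g (eq_of_tf fun z => ?_)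
  have h1 := h (amap σ z)
  rwa [her, her, amap_amap σ hσ] at h1

theorem eq_zero_of_her {y : AlbL E a b c} (h : ∀ x, her σ g x y = 0) : y = 0 := by
  apply amap_injective σ
  rw [amap_zero]
  refine eq_zero_of_tf fun z => ?_
  have h1 := h (wt g⁻¹ z)
  rwa [her, wt_wt_inv, tf_comm] at h1

variable (ρ σ lam g a b c) in
/-- The semilinear map, as a linear map over the rational numbers. -/
def phQ : Module.End ℚ (AlbL E a b c) := (AddMonoidHom.mk' (ph ρ lam) ph_add).toRatLinearMap

theorem phQ_apply (x : AlbL E a b c) : phQ ρ lam a b c x = ph ρ lam x := rfl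

theorem phQ_pow (n : ℕ) (x : AlbL E a b c) : (phQ ρ lam a b c ^ n) x = (ph ρ lam)^[n] x :=
  Module.End.pow_apply _ _ _

variable (σ g a b c) in
/-- The hermitian form. -/
def m2 : MultilinearMap ℚ (fun _ : Fin 2 => AlbL E a b c) E :=
  mkQ (fun x => her σ g (x 0) (x 1)) fun m i x y => by
    fin_cases i <;> simp [her_add_left, her_add_right]

variable (E a b c) in
/-- The trilinear form. -/
def m3 : MultilinearMap ℚ (fun _ : Fin 3 => AlbL E a b c) E :=
  mkQ (fun x => n3 (x 0) (x 1) (x 2)) fun m i x y => by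
    fin_cases i <;> simp [n3, cross_add_left, cross_add_right, tf_add_left, tf_add_right]

variable (E a b c) in
/-- The form of degree six. -/
def m6 : MultilinearMap ℚ (fun _ : Fin 6 => AlbL E a b c) E :=
  mkQ (fun x => n3 (cross (x 0) (x 1)) (cross (x 2) (x 3)) (cross (x 4) (x 5))) fun m i x y => by
    fin_cases i <;> simp [n3, cross_add_left, cross_add_right, tf_add_left, tf_add_right]

variable (ρ σ lam g a b c) in
/-- The family of the invariant maps. -/
def SE : EF E (AlbL E a b c) where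
  I := (Fin 2 → Fin 3) ⊕ (Fin 3 → Fin 3) ⊕ (Fin 6 → Fin 3)
  fin := inferInstance
  deg := Sum.elim (fun _ => 2) (Sum.elim (fun _ => 3) fun _ => 6)
  m := fun i => match i with
    | Sum.inl i => (m2 σ g a b c).compLinearMap fun j => phQ ρ lam a b c ^ (i j : ℕ)
    | Sum.inr (Sum.inl i) => (m3 E a b c).compLinearMap fun j => phQ ρ lam a b c ^ (i j : ℕ)
    | Sum.inr (Sum.inr i) => (m6 E a b c).compLinearMap fun j => phQ ρ lam a b c ^ (i j : ℕ)

theorem SE_two (i : Fin 2 → Fin 3) (x : Fin 2 → AlbL E a b c) :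
    (SE ρ σ lam g a b c).m (Sum.inl i) x =
      her σ g ((ph ρ lam)^[i 0] (x 0)) ((ph ρ lam)^[i 1] (x 1)) := by
  rw [← phQ_pow, ← phQ_pow]
  rfl

theorem SE_three (i : Fin 3 → Fin 3) (x : Fin 3 → AlbL E a b c) :
    (SE ρ σ lam g a b c).m (Sum.inr (Sum.inl i)) x =
      n3 ((ph ρ lam)^[i 0] (x 0)) ((ph ρ lam)^[i 1] (x 1)) ((ph ρ lam)^[i 2] (x 2)) := by
  rw [← phQ_pow, ← phQ_pow, ← phQ_pow]
  rfl

theorem SE_six (i : Fin 6 → Fin 3) (x : Fin 6 → AlbL E a b c) :
    (SE ρ σ lam g a b c).m (Sum.inr (Sum.inr i)) x =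
      n3 (cross ((ph ρ lam)^[i 0] (x 0)) ((ph ρ lam)^[i 1] (x 1)))
        (cross ((ph ρ lam)^[i 2] (x 2)) ((ph ρ lam)^[i 3] (x 3)))
        (cross ((ph ρ lam)^[i 4] (x 4)) ((ph ρ lam)^[i 5] (x 5))) := by
  rw [← phQ_pow, ← phQ_pow, ← phQ_pow, ← phQ_pow, ← phQ_pow, ← phQ_pow]
  rfl

theorem n3_pol (x y z : AlbL E a b c) : n3 x y z =
    cub (x + y + z) - cub (x + y) - cub (y + z) - cub (x + z) + cub x + cub y + cub z := by
  rw [cub_add (x + y) z, cub_add y z, cub_add x z, adj_add, tf_add_left, tf_add_left,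
    tf_add_left, n3]
  ring

theorem n3_map {f : AlbL E a b c → AlbL E a b c} (h1 : ∀ x y, f (x + y) = f x + f y)
    (h2 : ∀ x, cub (f x) = cub x) (x y z : AlbL E a b c) : n3 (f x) (f y) (f z) = n3 x y z := by
  rw [n3_pol, n3_pol, ← h1, ← h1, ← h1, ← h1, h2, h2, h2, h2, h2, h2, h2]

/-- The contragredient map. -/
theorem exists_dual (hσ : ∀ t, σ (σ t) = t)
    {φ : AlbL E a b c ≃ₗ[E] AlbL E a b c} (hφ : φ ∈ GO ρ σ lam g a b c) :
    ∃ f : AlbL E a b c → AlbL E a b c, (∀ x y, f (x + y) = f x + f y) ∧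
      (∀ x, cub (f x) = cub x) ∧ ∀ x y, cross (φ x) (φ y) = f (cross x y) := by
  refine ⟨fun z => wt g (amap σ (φ (amap σ (wt g⁻¹ z)))), fun x y => ?_, fun x => ?_,
    fun x y => eq_of_tf fun w => ?_⟩
  · simp only [wt_add, amap_add, map_add]
  · simp only
    rw [cub_wt, cub_amap, hφ.1, cub_amap, hσ, cub_wt, gam_inv, ← mul_assoc, ← mul_pow,
      mul_inv_cancel₀ (gam_ne g), one_pow, one_mul]
  · obtain ⟨w, rfl⟩ := φ.surjective w
    have h1 := n3_map (map_add φ) hφ.1 x y w
    have h2 := hφ.2.2 w (amap σ (wt g⁻¹ (cross x y)))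
    rw [her, her, amap_amap σ hσ, tf_wt, tf_wt, wt_wt_inv, tf_comm, tf_comm w] at h2
    rw [n3, n3] at h1
    rw [h1, h2]

theorem iter_comm {f : AlbL E a b c → AlbL E a b c} (h : ∀ x, f (ph ρ lam x) = ph ρ lam (f x))
    (n : ℕ) (x : AlbL E a b c) : (ph ρ lam)^[n] (f x) = f ((ph ρ lam)^[n] x) :=
  (Function.Semiconj.iterate_right h n x).symm

/-- The elements of the group preserve the forms. -/
theorem mem_grp_of (hσ : ∀ t, σ (σ t) = t)
    {φ : AlbL E a b c ≃ₗ[E] AlbL E a b c} (hφ : φ ∈ GO ρ σ lam g a b c) :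
    φ.restrictScalars ℚ ∈ (SE ρ σ lam g a b c).toForms.grp := by
  rw [EF.mem_grp]
  obtain ⟨f, f1, f2, f3⟩ := exists_dual hσ hφ
  have hc := iter_comm hφ.2.1
  rintro (i | i | i) x
  · refine (SE_two i _).trans (Eq.trans ?_ (SE_two i x).symm)
    simp only [LinearEquiv.restrictScalars_apply, hc]
    exact hφ.2.2 _ _
  · refine (SE_three i _).trans (Eq.trans ?_ (SE_three i x).symm)
    simp only [LinearEquiv.restrictScalars_apply, hc]
    exact n3_map (map_add φ) hφ.1 _ _ _
  · refine (SE_six i _).trans (Eq.trans ?_ (SE_six i x).symm)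
    simp only [LinearEquiv.restrictScalars_apply, hc, f3]
    exact n3_map f1 f2 _ _ _

/-- The maps which preserve the forms are in the group. -/
theorem exists_of_mem_grp (hσ : ∀ t, σ (σ t) = t) {u : AlbL E a b c ≃ₗ[ℚ] AlbL E a b c}
    (hu : u ∈ (SE ρ σ lam g a b c).toForms.grp) :
    ∃ φ ∈ GO ρ σ lam g a b c, ∀ x, φ x = u x := by
  rw [EF.mem_grp] at hu
  have h1 : ∀ x y, her σ g (u x) (u y) = her σ g x y := fun x y => by
    have h := (SE_two ![0, 0] fun j => u (![x, y] j)).symm.trans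
      ((hu (Sum.inl ![0, 0]) ![x, y]).trans (SE_two ![0, 0] ![x, y]))
    simpa using h
  have h2 : ∀ x y, her σ g (ph ρ lam (u x)) (u y) = her σ g (ph ρ lam x) y := fun x y => by
    have h := (SE_two ![1, 0] fun j => u (![x, y] j)).symm.trans
      ((hu (Sum.inl ![1, 0]) ![x, y]).trans (SE_two ![1, 0] ![x, y]))
    simpa using h
  have h3 : ∀ x, n3 (u x) (u x) (u x) = n3 x x x := fun x => by
    have h := (SE_three ![0, 0, 0] fun j => u (![x, x, x] j)).symm.trans
      ((hu (Sum.inr (Sum.inl ![0, 0, 0])) ![x, x, x]).trans (SE_three ![0, 0, 0] ![x, x, x]))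
    simpa using h
  have h4 : ∀ (t : E) x, u (t • x) = t • u x := fun t x => eq_of_her (g := g) hσ fun y => by
    obtain ⟨y, rfl⟩ := u.surjective y
    rw [h1, her_smul_left, her_smul_left, h1]
  refine ⟨{ u.toAddEquiv with map_smul' := h4 }, ⟨fun x => ?_, fun x => ?_, h1⟩, fun _ => rfl⟩
  · have h := h3 x
    rw [n3_self, n3_self] at h
    exact mul_left_cancel₀ (by norm_num) h
  · refine eq_of_her (g := g) hσ fun y => ?_
    obtain ⟨y, rfl⟩ := u.surjective y
    exact (h1 _ _).trans (h2 _ _).symm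

variable (ρ σ lam g) in
/-- The Lie algebra of the group. -/
structure Lg (X : Module.End E (AlbL E a b c)) : Prop where
  /-- a derivation of the cubic norm -/
  dr : Dr X
  /-- skew for the hermitian form -/
  sk : ∀ x y, her σ g (X x) y + her σ g x (X y) = 0
  /-- commutes with the semilinear map -/
  cm : ∀ x, X (ph ρ lam x) = ph ρ lam (X x)

theorem exists_of_mem_lie (hσ : ∀ t, σ (σ t) = t) {X : Module.End ℚ (AlbL E a b c)}
    (hX : X ∈ (SE ρ σ lam g a b c).toForms.lie) :
    ∃ Y : Module.End E (AlbL E a b c), Lg ρ σ lam g Y ∧ Y.restrictScalars ℚ = X := by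
  have hu := EF.of_mem_lie _ hX
  have h1 : ∀ x y, her σ g (X x) y + her σ g x (X y) = 0 := fun x y => by
    have h := (Finset.sum_congr (rfl : (Finset.univ : Finset (Fin 2)) = Finset.univ)
      fun (j : Fin 2) _ => SE_two (σ := σ) (g := g) ![0, 0]
      (Function.update ![x, y] j (X (![x, y] j)))).symm.trans (hu (Sum.inl ![0, 0]) ![x, y])
    simpa [Fin.sum_univ_two] using h
  have h2 : ∀ x y, her σ g (ph ρ lam (X x)) y + her σ g (ph ρ lam x) (X y) = 0 := fun x y => by
    have h := (Finset.sum_congr (rfl : (Finset.univ : Finset (Fin 2)) = Finset.univ)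
      fun (j : Fin 2) _ => SE_two (σ := σ) (g := g) ![1, 0]
      (Function.update ![x, y] j (X (![x, y] j)))).symm.trans (hu (Sum.inl ![1, 0]) ![x, y])
    simpa [Fin.sum_univ_two] using h
  have h3 : ∀ x, n3 (X x) x x + n3 x (X x) x + n3 x x (X x) = 0 := fun x => by
    have h := (Finset.sum_congr (rfl : (Finset.univ : Finset (Fin 3)) = Finset.univ)
      fun (j : Fin 3) _ => SE_three (σ := σ) (g := g) ![0, 0, 0]
      (Function.update ![x, x, x] j (X (![x, x, x] j)))).symm.trans
        (hu (Sum.inr (Sum.inl ![0, 0, 0])) ![x, x, x])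
    simpa [Fin.sum_univ_three] using h
  have h4 : ∀ (t : E) x, X (t • x) = t • X x := fun t x => eq_of_her (g := g) hσ fun y => by
    have h5 := h1 (t • x) y
    rw [her_smul_left] at h5
    rw [her_smul_left]
    linear_combination h5 - t * h1 x y
  refine ⟨{ X.toAddHom with map_smul' := h4 }, ⟨fun x => ?_, h1, fun x => ?_⟩, rfl⟩
  · have h := h3 x
    rw [n3, n3, n3, cross_comm (X x), tf_cross_comm x (X x), Alb.cross_self, tf_smul_left] at h
    change tf (adj x) (X x) = 0
    linear_combination (6 : E)⁻¹ * h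
  · refine eq_of_her (g := g) hσ fun y => ?_
    change her σ g (X (ph ρ lam x)) y = her σ g (ph ρ lam (X x)) y
    linear_combination h1 (ph ρ lam x) y - h2 x y

/-- Descent. -/
theorem descent (hS : E6H.IsSextic ρ σ kap) (hl : ρ lam = lam)
    {P : Set (Module.End E (AlbL E a b c))} (h0 : 0 ∈ P) (hadd : ∀ X ∈ P, ∀ Y ∈ P, X + Y ∈ P)
    (hsm : ∀ t : E, ρ t = t → σ t = t → ∀ X ∈ P, t • X ∈ P) (hL : ∀ X ∈ P, Lg ρ σ lam g X)
    {X : Module.End E (AlbL E a b c)} (hX : Lg ρ σ lam g X) (h : X ∈ Submodule.span E P) :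
    X ∈ P := by
  obtain ⟨n, t, Y, h1⟩ := Submodule.mem_span_set'.1 h
  have hρ : ∀ t : Fin n → E, ∑ i, t i • (Y i).1 = X → ∑ i, ρ (t i) • (Y i).1 = X := by
    intro t ht
    refine LinearMap.ext fun v => ?_
    obtain ⟨w, rfl⟩ : ∃ w, ph ρ lam w = v := ⟨ph ρ lam (ph ρ lam (((lam : E)⁻¹) • v)), by
      rw [ph3 hS.ρ3 hl, smul_smul, mul_inv_cancel₀ lam.ne_zero, one_smul]⟩
    rw [hX.cm, ← ht, LinearMap.sum_apply, LinearMap.sum_apply, ← phQ_apply ((∑ i, _)), map_sum]
    refine Finset.sum_congr rfl fun i _ => ?_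
    rw [LinearMap.smul_apply, LinearMap.smul_apply, phQ_apply, ph_smul, (hL _ (Y i).2).cm]
  have hσ : ∀ t : Fin n → E, ∑ i, t i • (Y i).1 = X → ∑ i, σ (t i) • (Y i).1 = X := by
    intro t ht
    refine LinearMap.ext fun v => eq_of_her (g := g) hS.σ2 fun y => ?_
    have h2 := map_sum (AddMonoidHom.mk' (fun x => her σ g x y) fun x x' => her_add_left x x' y)
      (fun i => (σ (t i) • (Y i).1) v) Finset.univ
    have h3 := map_sum (AddMonoidHom.mk' (fun y => her σ g v y) (her_add_right v))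
      (fun i => (t i • (Y i).1) y) Finset.univ
    simp only [AddMonoidHom.mk'_apply] at h2 h3
    rw [← LinearMap.sum_apply, ht] at h3
    rw [LinearMap.sum_apply, h2, eq_neg_of_add_eq_zero_left (hX.sk v y), h3,
      ← Finset.sum_neg_distrib]
    refine Finset.sum_congr rfl fun i _ => ?_
    rw [LinearMap.smul_apply, LinearMap.smul_apply, her_smul_left, her_smul_right,
      eq_neg_of_add_eq_zero_left ((hL _ (Y i).2).sk v y), mul_neg]
  have h2 := hρ _ h1
  have h3 := hρ _ h2
  have h4 := hσ _ h1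
  have h5 := hσ _ h2
  have h6 := hσ _ h3
  have h7 : X = ∑ i, ((6 : E)⁻¹ * (t i + ρ (t i) + ρ (ρ (t i)) +
      (σ (t i) + σ (ρ (t i)) + σ (ρ (ρ (t i)))))) • (Y i).1 := by
    simp only [mul_smul, add_smul, ← Finset.smul_sum, Finset.sum_add_distrib]
    rw [h1, h2, h3, h4, h5, h6]
    have h8 : X + X + X + (X + X + X) = (6 : E) • X := by module
    rw [h8, smul_smul, inv_mul_cancel₀ (by norm_num), one_smul]
  rw [h7]
  refine Finset.sum_induction _ (· ∈ P) (fun A B hA hB => hadd A hA B hB) h0 fun i _ =>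
    hsm _ ?_ ?_ _ (Y i).2
  · simp only [map_mul, map_add, map_inv₀, map_ofNat, hS.comm, hS.ρ3]
    ring
  · simp only [map_mul, map_add, map_inv₀, map_ofNat, hS.σ2]
    ring

end Vale.Agent.P011N.E2
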