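import Vale.Agent.P011N.E2.Frm
import Vale.Agent.P011N.E2.Simp
import Vale.Agent.P011N.E0.Brg

/-!
The anisotropic outer groups of type `E₆` with nontrivial Tits class are the groups of good families
of forms.
-/

open Module

set_option linter.unusedSectionVars false

namespace Vale.Agent.P011N.E2

open Vale.Agent.P011N
open Vale.Agent.P011 Vale.Agent.P011.MPQ Vale.Agent.P011.D4 Vale.Agent.P011.D4.Oct
open Vale.Agent.P011.E6 Vale.Agent.P011.E6.Alb
open Vale.Agent.P011.E6O (GO ph her)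
open Vale.Agent.P011.H327.Star

variable {k E : Type} [Field k] [NumberField k] [Field E] [NumberField E] [Algebra k E]
  {ρ σ : E ≃ₐ[k] E} {lam : Eˣ} {g : Fin 3 → Eˣ} {kap a b c : kˣ}

theorem gn_tan (hσ : ∀ t, σ (σ t) = t) {X : Module.End E (AlbL E a b c)}
    (hX : X ∈ Gn ρ σ lam g a b c) :
    X.restrictScalars ℚ ∈ (SE ρ σ lam g a b c).toForms.tan := by
  have hfin : FiniteDimensional ℚ (AlbL E a b c) := Module.Finite.trans E _
  obtain ⟨a', b', c', i, j, l, ht, x, hx, hs, rfl⟩ := hX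
  obtain ⟨G, q, h1, h2, h3⟩ := curve ht hx hs
  refine tan_of_point _ _ G h1 q h2 fun t hq => ?_
  obtain ⟨u, hu, h4⟩ := h3 t hq
  exact ⟨u.restrictScalars ℚ, mem_grp_of hσ hu, h4⟩

theorem res_inj {X Y : Module.End E (AlbL E a b c)}
    (h : X.restrictScalars ℚ = Y.restrictScalars ℚ) : X = Y :=
  LinearMap.restrictScalars_injective ℚ h

theorem M2_one_ne : (M2 1 : Module.End E (AlbL E a b c)) ≠ 0 := by
  intro h
  have h1 := congrArg (fun f : Module.End E (AlbL E a b c) => (f e3).x2.fst.re) h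
  simp [M2_apply, Alb.e3] at h1

variable (hS : E6H.IsSextic ρ σ kap) (hg : E6H.IsForm ρ σ lam g)

include hS hg

theorem comm_dr {Y : Module.End E (AlbL E a b c)}
    (h : ∀ X ∈ Gn ρ σ lam g a b c, X * Y = Y * X) (X : Module.End E (AlbL E a b c)) (hX : Dr X) :
    X * Y = Y * X :=
  gen_dr hS hg (V := Cm Y) (Cm_brk Y) h hX

theorem exists_noncomm : ∃ X ∈ Gn ρ σ lam g a b c, ∃ Y ∈ Gn ρ σ lam g a b c, X * Y ≠ Y * X := by
  by_contra hn
  push Not at hn
  have h1 : ∀ X : Module.End E (AlbL E a b c), Dr X → ∀ Y, Dr Y → Y * X = X * Y :=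
    fun X hX Y hY => comm_dr hS hg
      (fun Z hZ => (comm_dr hS hg (fun Z' hZ' => hn Z' hZ' Z hZ) X hX).symm) Y hY
  apply M2_one_ne (E := E) (a := a) (b := b) (c := c)
  rw [← mul_one (1 : OctL E a b c), ← brk_P3_P1, h1 _ (dr_P1 1) _ (dr_P3 1), sub_self]

theorem irr (W : Submodule ℚ (Module.End ℚ (AlbL E a b c)))
    (hW : W ≤ (SE ρ σ lam g a b c).toForms.lie) (h0 : W ≠ ⊥)
    (hst : ∀ X ∈ (SE ρ σ lam g a b c).toForms.tan, ∀ Y ∈ W, X * Y - Y * X ∈ W) :
    W = (SE ρ σ lam g a b c).toForms.lie := by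
  have hL : ∀ Y : Module.End E (AlbL E a b c), Y.restrictScalars ℚ ∈ W → Lg ρ σ lam g Y := by
    intro Y hY
    obtain ⟨Y', h1, h2⟩ := exists_of_mem_lie hS.σ2 (hW hY)
    exact res_inj h2 ▸ h1
  have hb : ∀ X ∈ Gn ρ σ lam g a b c, ∀ Y : Module.End E (AlbL E a b c),
      Y.restrictScalars ℚ ∈ W → (X * Y - Y * X).restrictScalars ℚ ∈ W :=
    fun X hX Y hY => hst _ (gn_tan hS.σ2 hX) _ hY
  set P : Set (Module.End E (AlbL E a b c)) :=
    {Y | ∀ t : E, ρ t = t → σ t = t → (t • Y).restrictScalars ℚ ∈ W} with hP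
  have p1 : ∀ Y ∈ P, Y.restrictScalars ℚ ∈ W := fun Y hY => by
    have h := hY 1 (map_one ρ) (map_one σ)
    rwa [one_smul] at h
  have p2 : ∀ X ∈ Gn ρ σ lam g a b c, ∀ Y : Module.End E (AlbL E a b c),
      Y.restrictScalars ℚ ∈ W → X * Y - Y * X ∈ P := by
    intro X hX Y hY t h1 h2
    have h := hb _ (Gn_smul hX h1 h2) Y hY
    rwa [smul_mul_assoc, mul_smul_comm, ← smul_sub] at h
  have p3 : ∀ Y ∈ Submodule.span E P, Dr Y := by
    intro Y hY
    induction hY using Submodule.span_induction with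
    | mem Y hY => exact (hL Y (p1 Y hY)).dr
    | zero => exact fun x => tf_zero_right _
    | add Y Z _ _ h1 h2 => exact h1.add h2
    | smul t Y _ h1 => exact h1.smul t
  let S : Submodule E (Module.End E (AlbL E a b c)) :=
    { carrier := {X | ∀ Y ∈ Submodule.span E P, X * Y - Y * X ∈ Submodule.span E P}
      zero_mem' := fun Y _ => by
        rw [zero_mul, mul_zero, sub_zero]
        exact Submodule.zero_mem _
      add_mem' := fun {X X'} h h' Y hY => by
        rw [add_mul, mul_add, add_sub_add_comm]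
        exact Submodule.add_mem _ (h Y hY) (h' Y hY)
      smul_mem' := fun t X h Y hY => by
        rw [smul_mul_assoc, mul_smul_comm, ← smul_sub]
        exact Submodule.smul_mem _ t (h Y hY) }
  have p4 : ∀ X : Module.End E (AlbL E a b c), Dr X → X ∈ S := by
    intro X hX
    refine gen_dr hS hg (V := S) (fun A hA B hB Y hY => ?_) (fun A hA Y hY => ?_) hX
    · have h := Submodule.sub_mem _ (hA _ (hB Y hY)) (hB _ (hA Y hY))
      have h1 : A * (B * Y - Y * B) - (B * Y - Y * B) * A -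
          (B * (A * Y - Y * A) - (A * Y - Y * A) * B) =
          (A * B - B * A) * Y - Y * (A * B - B * A) := by noncomm_ring
      rwa [h1] at h
    · induction hY using Submodule.span_induction with
      | mem Y hY => exact Submodule.subset_span (p2 A hA Y (p1 Y hY))
      | zero =>
        rw [zero_mul, mul_zero, sub_zero]
        exact Submodule.zero_mem _
      | add Y Z _ _ h1 h2 =>
        rw [add_mul, mul_add, add_sub_add_comm]
        exact Submodule.add_mem _ h1 h2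
      | smul t Y _ h1 =>
        rw [smul_mul_assoc, mul_smul_comm, ← smul_sub]
        exact Submodule.smul_mem _ t h1
  obtain ⟨Y, hY, hY0⟩ : ∃ Y ∈ Submodule.span E P, Y ≠ 0 := by
    obtain ⟨Y0, h1, h2⟩ := Submodule.exists_mem_ne_zero_of_ne_bot h0
    obtain ⟨Y, h3, rfl⟩ := exists_of_mem_lie hS.σ2 (hW h1)
    by_contra hn
    push Not at hn
    apply h2
    rw [eq_zero_of_comm h3.dr (comm_dr hS hg fun X hX =>
      sub_eq_zero.1 (hn _ (Submodule.subset_span (p2 X hX Y h1))))]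
    rfl
  refine le_antisymm hW fun X0 hX0 => ?_
  obtain ⟨X, hX, rfl⟩ := exists_of_mem_lie hS.σ2 hX0
  refine p1 X (descent (P := P) hS hg.ρlam (fun t _ _ => ?_) (fun A hA B hB t h1 h2 => ?_)
    (fun s s1 s2 A hA t h1 h2 => ?_) (fun A hA => hL A (p1 A hA)) hX
    (dr_simple p4 p3 hY hY0 hX.dr))
  · rw [smul_zero]
    exact W.zero_mem
  · rw [smul_add]
    exact W.add_mem (hA t h1 h2) (hB t h1 h2)
  · rw [smul_smul]
    exact hA _ (by rw [map_mul, h1, s1]) (by rw [map_mul, h2, s2])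

theorem good (han : (∀ x : AlbL E a b c, her σ g x x = 0 → x = 0) ∨
    Oct.Division (up E a) (up E b) (up E c)) : (SE ρ σ lam g a b c).toForms.Good := by
  have hfin : FiniteDimensional ℚ (AlbL E a b c) := Module.Finite.trans E _
  obtain ⟨X, hX, Y, hY, hXY⟩ := exists_noncomm (a := a) (b := b) (c := c) hS hg
  refine ⟨fun u hu => ?_, fun x hx => ?_, ⟨_, gn_tan hS.σ2 hX, fun h => hXY ?_⟩, irr hS hg,
    ⟨_, tan_le_lie _ (gn_tan hS.σ2 hX), _, tan_le_lie _ (gn_tan hS.σ2 hY), fun h =>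
      hXY (res_inj h)⟩, fun n hn => ?_⟩
  · obtain ⟨φ, hφ, h1⟩ := exists_of_mem_grp hS.σ2 hu
    refine abs_det_eq_one ((LinearMap.mk₂ ℚ (fun x y => her σ g x y) her_add_left
      (fun t x y => ?_) her_add_right (fun t x y => ?_)).compr₂ (Algebra.trace ℚ E))
      (fun y hy => eq_zero_of_her (σ := σ) (g := g) fun x => ?_) _ fun x y => ?_
    · rw [← Rat.cast_smul_eq_qsmul E, her_smul_left, Rat.smul_def]
    · rw [← Rat.cast_smul_eq_qsmul E, her_smul_right, map_ratCast, Rat.smul_def]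
    · refine (traceForm_nondegenerate ℚ E).1 _ fun t => ?_
      have h2 : Algebra.trace ℚ E (her σ g (t • x) y) = 0 := hy (t • x)
      rwa [her_smul_left, mul_comm] at h2
    · change Algebra.trace ℚ E (her σ g (u x) (u y)) = Algebra.trace ℚ E (her σ g x y)
      rw [← h1, ← h1, hφ.2.2]
  · rcases han with han | han
    · refine EF.aniso _ (i := Sum.inl ![0, 0]) two_ne_zero fun h => hx (han x ?_)
      simpa using (SE_two ![0, 0] fun _ => x).symm.trans h
    · by_contra hn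
      have h1 : ∀ i : (SE ρ σ lam g a b c).I, (SE ρ σ lam g a b c).deg i ≠ 0 →
          (SE ρ σ lam g a b c).m i (fun _ => x) = 0 := fun i hi => by
        by_contra h
        exact hn (EF.aniso _ hi h)
      refine hx (eq_zero_of_inv han (ρ := ρ) (lam := lam)
        ⟨hS.ρ3, hg.ρlam, lam.ne_zero, hg.hlam⟩ (fun i j l => ?_) fun i j i' j' i'' j'' => ?_)
      · simpa using (SE_three ![i, j, l] fun _ => x).symm.trans
          (h1 (Sum.inr (Sum.inl ![i, j, l])) three_ne_zero)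
      · simpa using (SE_six ![i, j, i', j', i'', j''] fun _ => x).symm.trans
          (h1 (Sum.inr (Sum.inr ![i, j, i', j', i'', j''])) (Nat.succ_ne_zero 5))
  · rw [res_inj (Y := 0) h, zero_mul, mul_zero]
  · obtain ⟨φ, hφ, h1⟩ := exists_of_mem_grp hS.σ2 n.2
    obtain ⟨t, ht⟩ := scalar_of_comm (Y := φ.toLinearMap) (comm_dr hS hg fun Z hZ =>
      LinearMap.ext fun v => by
        have h2 := congrArg (fun f : Module.End ℚ (AlbL E a b c) => f v)
          (hn _ (tan_le_lie _ (gn_tan hS.σ2 hZ)))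
        change Z (φ v) = φ (Z v)
        rw [h1, h1]
        exact h2.symm)
    rw [Subgroup.mem_center_iff]
    intro m
    obtain ⟨ψ, -, h2⟩ := exists_of_mem_grp hS.σ2 m.2
    refine Subtype.ext (LinearEquiv.ext fun v => ?_)
    change m.1 (n.1 v) = n.1 (m.1 v)
    rw [← h1, ← h1, ← h2, ← h2]
    exact (congrArg ψ (ht v)).trans ((map_smul ψ t v).trans (ht _).symm)

omit hS hg in
/-- A permutation in the group as a linear map. -/
def toLin (f : (E6H.GHer σ g a b c ⊓ E6H.GPh ρ lam a b c :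
    Subgroup (Equiv.Perm (AlbL E a b c)))) : AlbL E a b c ≃ₗ[E] AlbL E a b c :=
  { f.1 with
    map_add' := f.2.1.1.1
    map_smul' := f.2.1.1.2.1 }

omit hg in
theorem exists_equiv : Nonempty ((E6H.GHer σ g a b c ⊓ E6H.GPh ρ lam a b c :
    Subgroup (Equiv.Perm (AlbL E a b c))) ≃* (SE ρ σ lam g a b c).toForms.grp) := by
  refine ⟨{
    toFun := fun f => ⟨(toLin f).restrictScalars ℚ,
      mem_grp_of hS.σ2 ⟨f.2.1.1.2.2, f.2.2.2, f.2.1.2⟩⟩
    invFun := fun u => ⟨u.1.toEquiv, ?_⟩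
    left_inv := fun _ => rfl
    right_inv := fun _ => rfl
    map_mul' := fun _ _ => rfl }⟩
  obtain ⟨φ, hφ, h⟩ := exists_of_mem_grp hS.σ2 u.2
  have h1 : (u.1.toEquiv : AlbL E a b c → AlbL E a b c) = φ := (funext h).symm
  change E6H.IsHer σ g u.1.toEquiv ∧ E6H.IsPh ρ lam u.1.toEquiv
  rw [h1]
  exact ⟨⟨⟨map_add φ, map_smul φ, hφ.1⟩, hφ.2.2⟩, ⟨⟨map_add φ, map_smul φ, hφ.1⟩, hφ.2.1⟩⟩

omit hS hg in
theorem oldE3A : E0.OldE3A HasGood := by
  intro k E _ _ _ _ _ ρ σ kap hS a b c _ lam g hg han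
  exact ⟨AlbL E a b c, inferInstance, inferInstance, Module.Finite.trans E _,
    (SE ρ σ lam g a b c).toForms, good hS hg han, exists_equiv hS⟩

omit hS hg in
/-- **Block E2.** -/
theorem clE3A : ClE3A HasGood := E0.clE3A_of E0.isoInv_hasGood oldE3A

end Vale.Agent.P011N.E2
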